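import Mathlib
import Crest.Prelude.Def_AsymptoticConvexity

/-!
Row 125: common tools on closed finite-codimensional subspaces and the "no equivalent AUC norm"
criterion.
-/

set_option autoImplicit false

namespace Crest.Agent.R125

open Filter Topology

variable {X : Type} [NormedAddCommGroup X] [NormedSpace ℝ X]

/-- A normed space with a completeness proof, as a `RealBanach` record. -/
abbrev mkB (X : Type) [NormedAddCommGroup X] [NormedSpace ℝ X] (hc : CompleteSpace X) :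
    Crest.AnalysisR.RealBanach := ⟨X, inferInstance, inferInstance, hc⟩

/-- closed and of finite codimension -/
def Cof (S : Submodule ℝ X) : Prop := IsClosed (S : Set X) ∧ FiniteDimensional ℝ (X ⧸ S)

theorem isCof_iff (hc : CompleteSpace X) (F : Set X) :
    (mkB X hc).IsCof F ↔ ∃ S : Submodule ℝ X, (S : Set X) = F ∧ Cof S := by
  constructor
  · rintro ⟨S, rfl, h1, h2⟩
    exact ⟨S, rfl, h1, h2⟩
  · rintro ⟨S, rfl, h1, h2⟩
    exact ⟨S, rfl, h1, h2⟩

theorem Cof.isCof (hc : CompleteSpace X) {S : Submodule ℝ X} (h : Cof S) :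
    (mkB X hc).IsCof (S : Set X) := (isCof_iff hc _).2 ⟨S, rfl, h⟩

theorem cof_top : Cof (⊤ : Submodule ℝ X) :=
  ⟨by simp, Submodule.CoFG.top⟩

theorem Cof.inf {S T : Submodule ℝ X} (hS : Cof S) (hT : Cof T) : Cof (S ⊓ T) :=
  ⟨by simpa using hS.1.inter hT.1, Submodule.CoFG.inf hS.2 hT.2⟩

theorem cof_ker {G : Type*} [NormedAddCommGroup G] [NormedSpace ℝ G] [FiniteDimensional ℝ G]
    (L : X →L[ℝ] G) : Cof (LinearMap.ker (L : X →ₗ[ℝ] G)) :=
  ⟨L.isClosed_ker, Submodule.CoFG.ker _⟩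

/-- finitely many continuous functionals cut out a closed finite-codimensional subspace -/
theorem exists_cof_of_finset {ι : Type*} (A : Finset ι) (φ : ι → X →L[ℝ] ℝ) :
    ∃ S : Submodule ℝ X, Cof S ∧ ∀ y ∈ S, ∀ i ∈ A, φ i y = 0 := by
  classical
  induction A using Finset.induction_on with
  | empty => exact ⟨⊤, cof_top, by simp⟩
  | insert a A _ ih =>
    obtain ⟨S, hS, h⟩ := ih
    refine ⟨S ⊓ LinearMap.ker (φ a : X →ₗ[ℝ] ℝ), hS.inf (cof_ker _), ?_⟩
    intro y hy i hi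
    rcases Finset.mem_insert.1 hi with rfl | hi
    · exact hy.2
    · exact h y hy.1 i hi

/-- decomposition along a closed finite-codimensional subspace -/
theorem Cof.exists_decomp {S : Submodule ℝ X} (hS : Cof S) :
    ∃ (n : ℕ) (π : X →L[ℝ] EuclideanSpace ℝ (Fin n)) (σ : EuclideanSpace ℝ (Fin n) →L[ℝ] X),
      ∀ w, w - σ (π w) ∈ S := by
  have := hS.1
  have := hS.2
  obtain ⟨g, hg⟩ := S.mkQ.exists_rightInverse_of_surjective S.range_mkQ
  let e := toEuclidean (E := X ⧸ S)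
  refine ⟨_, (e : (X ⧸ S) →L[ℝ] _).comp S.mkQL,
    LinearMap.toContinuousLinearMap (g.comp e.symm.toLinearEquiv.toLinearMap), ?_⟩
  intro w
  rw [← Submodule.Quotient.eq]
  have h1 : ∀ q : X ⧸ S, S.mkQ (g q) = q := fun q => by
    simpa using LinearMap.congr_fun hg q
  have := h1 (S.mkQ w)
  simpa using this.symm

/-- a weakly null sequence comes arbitrarily close to a closed finite-codimensional subspace -/
theorem Cof.exists_close_of_weaklyNull {S : Submodule ℝ X} (hS : Cof S) (y : ℕ → X)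
    (hy : ∀ φ : X →L[ℝ] ℝ, Tendsto (fun n => φ (y n)) atTop (𝓝 0)) {ε : ℝ} (hε : 0 < ε) :
    ∃ n, ∃ s ∈ S, ‖y n - s‖ ≤ ε := by
  obtain ⟨n, π, σ, h⟩ := hS.exists_decomp
  have h1 : Tendsto (fun m => π (y m)) atTop (𝓝 0) := by
    have : ∀ i : Fin n, Tendsto (fun m => π (y m) i) atTop (𝓝 ((0 : EuclideanSpace ℝ (Fin n)) i)) := by
      intro i
      simpa using hy ((EuclideanSpace.proj i : EuclideanSpace ℝ (Fin n) →L[ℝ] ℝ).comp π)
    have h2 : Tendsto (fun m => (π (y m)).ofLp) atTop (𝓝 (0 : EuclideanSpace ℝ (Fin n)).ofLp) :=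
      tendsto_pi_nhds.2 this
    have h3 := ((PiLp.continuous_toLp 2 (fun _ : Fin n => ℝ)).tendsto _).comp h2
    simpa [Function.comp_def] using h3
  have h2 : Tendsto (fun m => ‖σ (π (y m))‖) atTop (𝓝 0) := by
    have := ((σ.continuous.tendsto 0).comp h1).norm
    simpa [Function.comp_def] using this
  obtain ⟨m, hm⟩ := (h2.eventually (gt_mem_nhds hε)).exists
  exact ⟨m, _, h (y m), by simpa using hm.le⟩

/-- in a bounded sequence two different terms are almost congruent modulo a closed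
finite-codimensional subspace -/
theorem Cof.exists_pair_close {S : Submodule ℝ X} (hS : Cof S) (w : ℕ → X) {R : ℝ}
    (hw : ∀ n, ‖w n‖ ≤ R) {ε : ℝ} (hε : 0 < ε) :
    ∃ i l, i ≠ l ∧ ∃ s ∈ S, ‖w i - w l - s‖ ≤ ε := by
  obtain ⟨n, π, σ, h⟩ := hS.exists_decomp
  have hb : Bornology.IsBounded (Metric.closedBall (0 : EuclideanSpace ℝ (Fin n)) (‖π‖ * R)) :=
    Metric.isBounded_closedBall
  obtain ⟨a, -, φ, hφ, ha⟩ := tendsto_subseq_of_bounded hb (x := fun m => π (w m)) (fun m => by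
    simp only [Metric.mem_closedBall, dist_zero_right]
    exact (π.le_opNorm _).trans (mul_le_mul_of_nonneg_left (hw m) (norm_nonneg _)))
  have ha' : Tendsto (fun m => π (w (φ (m + 1)))) atTop (𝓝 a) :=
    ha.comp (tendsto_add_atTop_nat 1)
  have h1 : Tendsto (fun m => π (w (φ m)) - π (w (φ (m + 1)))) atTop (𝓝 0) := by
    simpa using Tendsto.sub ha ha'
  have h2 : Tendsto (fun m => ‖σ (π (w (φ m)) - π (w (φ (m + 1))))‖) atTop (𝓝 0) := by
    have := ((σ.continuous.tendsto 0).comp h1).norm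
    simpa [Function.comp_def] using this
  obtain ⟨m, hm⟩ := (h2.eventually (gt_mem_nhds hε)).exists
  refine ⟨φ m, φ (m + 1), (hφ (Nat.lt_succ_self m)).ne, _, h (w (φ m) - w (φ (m + 1))), ?_⟩
  simpa using hm.le

/-- an upper `ℓ²` estimate for signed sums makes a sequence weakly null -/
theorem weaklyNull_of_upper (y : ℕ → X) (C : ℝ)
    (h : ∀ (A : Finset ℕ) (c : ℕ → ℝ), (∀ n, c n = 1 ∨ c n = -1) →
      ‖∑ n ∈ A, c n • y n‖ ^ 2 ≤ C * A.card)
    (φ : X →L[ℝ] ℝ) : Tendsto (fun n => φ (y n)) atTop (𝓝 0) := by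
  rw [← Nat.cofinite_eq_atTop, Metric.tendsto_nhds]
  intro ε hε
  rw [eventually_cofinite]
  by_contra hinf
  have hinf' : Set.Infinite {n | ¬ dist (φ (y n)) 0 < ε} := hinf
  obtain ⟨K, hK⟩ := exists_nat_gt (‖φ‖ ^ 2 * C / ε ^ 2)
  obtain ⟨A, hA, hcard⟩ := hinf'.exists_subset_card_eq (K + 1)
  let c : ℕ → ℝ := fun n => if 0 ≤ φ (y n) then 1 else -1
  have hc : ∀ n, c n = 1 ∨ c n = -1 := fun n => by
    simp only [c]; split_ifs <;> simp
  have h1 := h A c hc
  have h2 : (A.card : ℝ) * ε ≤ φ (∑ n ∈ A, c n • y n) := by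
    rw [map_sum, ← nsmul_eq_mul, ← Finset.sum_const]
    refine Finset.sum_le_sum fun n hn => ?_
    have := hA hn
    simp only [Set.mem_ofPred_eq, dist_zero_right, Real.norm_eq_abs, not_lt] at this
    simp only [map_smul, smul_eq_mul, c]
    split_ifs with h0
    · rwa [abs_of_nonneg h0, ← one_mul (φ (y n))] at this
    · rw [abs_of_neg (not_le.1 h0)] at this
      linarith
  have h3 : φ (∑ n ∈ A, c n • y n) ≤ ‖φ‖ * ‖∑ n ∈ A, c n • y n‖ :=
    (le_abs_self _).trans (φ.le_opNorm _)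
  have hpos : (0 : ℝ) < A.card := by rw [hcard]; positivity
  have h4 : ((A.card : ℝ) * ε) ^ 2 ≤ ‖φ‖ ^ 2 * (C * A.card) := by
    calc ((A.card : ℝ) * ε) ^ 2 ≤ (‖φ‖ * ‖∑ n ∈ A, c n • y n‖) ^ 2 :=
          pow_le_pow_left₀ (by positivity) (h2.trans h3) 2
      _ = ‖φ‖ ^ 2 * ‖∑ n ∈ A, c n • y n‖ ^ 2 := by ring
      _ ≤ _ := mul_le_mul_of_nonneg_left h1 (by positivity)
  have h5 : (A.card : ℝ) * ε ^ 2 ≤ ‖φ‖ ^ 2 * C := by
    have : (A.card : ℝ) * ((A.card : ℝ) * ε ^ 2) ≤ (A.card : ℝ) * (‖φ‖ ^ 2 * C) := by nlinarith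
    exact le_of_mul_le_mul_left this hpos
  rw [div_lt_iff₀ (by positivity)] at hK
  rw [hcard] at h5
  push_cast at h5
  nlinarith [sq_nonneg ε]

/-- The growth step: under an AUC norm, moving along an almost finite-codimensional direction of
size at least `δ` increases the norm by a fixed amount. -/
theorem growth (hc : CompleteSpace X) (N : X → ℝ) (hN : (mkB X hc).IsEquivNorm N)
    (hA : (mkB X hc).IsAUC N) (M δ : ℝ) (hδ : 0 < δ) :
    ∃ κ B : ℝ, 0 < κ ∧ (∀ x : X, ‖x‖ ≤ M → N x ≤ B) ∧ (∀ x, 0 ≤ N x) ∧ ∀ x : X, ‖x‖ ≤ M →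
      ∃ S : Submodule ℝ X, Cof S ∧ ∃ ε : ℝ, 0 < ε ∧
        ∀ z : X, ∀ y ∈ S, ‖z - x - y‖ ≤ ε → δ ≤ ‖z - x‖ → N x + κ ≤ N z := by
  obtain ⟨hadd, hsmul, a, b, ha, hab⟩ := hN
  change ∀ x y : X, N (x + y) ≤ N x + N y at hadd
  change ∀ (a : ℝ) (x : X), N (a • x) = |a| * N x at hsmul
  change ∀ x : X, a * ‖x‖ ≤ N x ∧ N x ≤ b * ‖x‖ at hab
  have hN0 : ∀ x, 0 ≤ N x := fun x => le_trans (by positivity) (hab x).1
  have hneg : ∀ x, N (-x) = N x := fun x => by
    have := hsmul (-1) x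
    simpa using this
  set b' := |b| + 1 with hb'
  have hb'pos : 0 < b' := by positivity
  have hNb : ∀ x, N x ≤ b' * ‖x‖ := fun x =>
    (hab x).2.trans (mul_le_mul_of_nonneg_right (by linarith [le_abs_self b]) (norm_nonneg _))
  set B := b' * (|M| + 1) with hB
  have hBpos : 0 < B := by positivity
  have hNB : ∀ x : X, ‖x‖ ≤ M → N x ≤ B := fun x hx =>
    (hNb x).trans (mul_le_mul_of_nonneg_left (by linarith [le_abs_self M]) hb'pos.le)
  set t := a * δ / (2 * B) with ht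
  have htpos : 0 < t := by positivity
  obtain ⟨c, hcpos, hc'⟩ := hA t htpos
  set ρ := a * δ / 4 with hρ
  have hρpos : 0 < ρ := by positivity
  refine ⟨min ρ (ρ * c / 2), B, lt_min hρpos (by positivity), hNB, hN0, ?_⟩
  intro x hx
  by_cases hxρ : N x < ρ
  · refine ⟨⊤, cof_top, 1, one_pos, ?_⟩
    intro z y _ _ hz
    have h1 : a * δ ≤ N (z - x) := le_trans (mul_le_mul_of_nonneg_left hz ha.le) (hab _).1
    have h2 : N (z - x) ≤ N z + N x := by
      rw [sub_eq_add_neg]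
      exact (hadd _ _).trans (by rw [hneg])
    have := min_le_left ρ (ρ * c / 2)
    linarith
  · push Not at hxρ
    set r := N x with hr
    have hrpos : 0 < r := hρpos.trans_le hxρ
    have hu : N (r⁻¹ • x) = 1 := by
      rw [hsmul, abs_of_pos (inv_pos.2 hrpos), ← hr, inv_mul_cancel₀ hrpos.ne']
    obtain ⟨F, hF, hFy⟩ := hc' _ hu
    obtain ⟨S, rfl, hS⟩ := (isCof_iff hc F).1 hF
    change ∀ y ∈ (S : Set X), N y = 1 → c ≤ N (r⁻¹ • x + t • y) - 1 at hFy
    refine ⟨S, hS, min (δ / 2) (ρ * c / (2 * b')), lt_min (by positivity) (by positivity), ?_⟩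
    intro z y hy hzy hz
    have hε1 := hzy.trans (min_le_left _ _)
    have hε2 := hzy.trans (min_le_right _ _)
    have hy1 : δ / 2 ≤ ‖y‖ := by
      have : ‖z - x‖ ≤ ‖z - x - y‖ + ‖y‖ := by
        simpa using norm_add_le (z - x - y) y
      linarith
    set q := N y with hq
    have hq1 : a * δ / 2 ≤ q := by
      have := (hab y).1
      have h2 := mul_le_mul_of_nonneg_left hy1 ha.le
      linarith
    have hqpos : 0 < q := lt_of_lt_of_le (by positivity) hq1
    have hyu : N (q⁻¹ • y) = 1 := by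
      rw [hsmul, abs_of_pos (inv_pos.2 hqpos), ← hq, inv_mul_cancel₀ hqpos.ne']
    have h1 := hFy _ (S.smul_mem _ hy) hyu
    -- convexity
    set μ := t * r / q with hμ
    have hμpos : 0 < μ := by positivity
    have hμ1 : μ ≤ 1 := by
      rw [hμ, div_le_one hqpos]
      have hrB : r ≤ B := hNB x hx
      calc t * r ≤ t * B := mul_le_mul_of_nonneg_left hrB htpos.le
        _ = a * δ / 2 := by rw [ht]; field_simp
        _ ≤ q := hq1
    have hdec : r⁻¹ • x + t • q⁻¹ • y = r⁻¹ • ((1 - μ) • x + μ • (x + y)) := by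
      rw [smul_add μ, ← add_assoc, ← add_smul, sub_add_cancel, one_smul, smul_add, smul_smul,
        smul_smul]
      congr 2
      rw [hμ]; field_simp
    have h2 : N (r⁻¹ • ((1 - μ) • x + μ • (x + y))) ≤ r⁻¹ * ((1 - μ) * r + μ * N (x + y)) := by
      rw [hsmul, abs_of_pos (inv_pos.2 hrpos)]
      refine mul_le_mul_of_nonneg_left ?_ (inv_pos.2 hrpos).le
      refine (hadd _ _).trans ?_
      rw [hsmul, hsmul, abs_of_nonneg (by linarith), abs_of_pos hμpos]
    rw [hdec] at h1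
    have h3 : r * (1 + c) ≤ (1 - μ) * r + μ * N (x + y) := by
      have : 1 + c ≤ r⁻¹ * ((1 - μ) * r + μ * N (x + y)) := by linarith
      have h4 := mul_le_mul_of_nonneg_left this hrpos.le
      rwa [← mul_assoc, mul_inv_cancel₀ hrpos.ne', one_mul] at h4
    have h4 : r + r * c ≤ N (x + y) := by
      have h5 : r * c ≤ μ * (N (x + y) - r) := by linarith
      have h6 : 0 < r * c := by positivity
      have h7 : 0 ≤ N (x + y) - r := by
        by_contra hneg'
        push Not at hneg'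
        nlinarith
      nlinarith
    have h5 : N (x + y) ≤ N z + N (z - x - y) := by
      have : x + y = z + -(z - x - y) := by abel
      rw [this]
      exact (hadd _ _).trans (by rw [hneg])
    have h6 : N (z - x - y) ≤ ρ * c / 2 := by
      refine (hNb _).trans ?_
      calc b' * ‖z - x - y‖ ≤ b' * (ρ * c / (2 * b')) := mul_le_mul_of_nonneg_left hε2 hb'pos.le
        _ = ρ * c / 2 := by field_simp
    have h7 : ρ * c ≤ r * c := mul_le_mul_of_nonneg_right hxρ hcpos.le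
    have := min_le_right ρ (ρ * c / 2)
    linarith

/-- Criterion for the absence of an equivalent AUC norm: bounded "trees" of every finite height
whose steps have size at least `δ` and are almost in any prescribed closed finite-codimensional
subspace. -/
theorem noAUC (hc : CompleteSpace X) (M δ : ℝ) (hδ : 0 < δ)
    (h : ∀ k : ℕ, ∃ S : ℕ → Set X, (S 0).Nonempty ∧ (∀ j ≤ k, ∀ x ∈ S j, ‖x‖ ≤ M) ∧
      ∀ j < k, ∀ x ∈ S j, ∀ F : Submodule ℝ X, Cof F → ∀ ε : ℝ, 0 < ε →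
        ∃ z ∈ S (j + 1), ∃ y ∈ F, ‖z - x - y‖ ≤ ε ∧ δ ≤ ‖z - x‖)
    (N : X → ℝ) (hN : (mkB X hc).IsEquivNorm N) : ¬ (mkB X hc).IsAUC N := by
  intro hA
  obtain ⟨κ, B, hκ, hB, hN0, hg⟩ := growth hc N hN hA M δ hδ
  obtain ⟨k, hk⟩ := exists_nat_gt (B / κ)
  obtain ⟨S, ⟨x0, hx0⟩, hSM, hstep⟩ := h k
  have key : ∀ j ≤ k, ∃ x ∈ S j, (j : ℝ) * κ ≤ N x := by
    intro j
    induction j with
    | zero => intro _; exact ⟨x0, hx0, by simpa using hN0 x0⟩
    | succ j ih =>
      intro hj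
      obtain ⟨x, hx, hxN⟩ := ih (by omega)
      obtain ⟨F, hF, ε, hε, hz⟩ := hg x (hSM j (by omega) x hx)
      obtain ⟨z, hzS, y, hy, h1, h2⟩ := hstep j (by omega) x hx F hF ε hε
      refine ⟨z, hzS, ?_⟩
      have := hz z y hy h1 h2
      push_cast
      linarith
  obtain ⟨x, hx, hxN⟩ := key k le_rfl
  have := hB x (hSM k le_rfl x hx)
  rw [div_lt_iff₀ hκ] at hk
  linarith

/-- Tree version of `noAUC`. -/
theorem noAUC_tree (hc : CompleteSpace X) (M δ : ℝ) (hδ : 0 < δ)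
    (h : ∀ k : ℕ, ∃ x : List ℕ → X, (∀ v, v.length ≤ k → ‖x v‖ ≤ M) ∧
      (∀ v a, v.length < k → δ ≤ ‖x (a :: v) - x v‖) ∧
      ∀ v, v.length < k → ∀ φ : X →L[ℝ] ℝ,
        Tendsto (fun a => φ (x (a :: v) - x v)) atTop (𝓝 0))
    (N : X → ℝ) (hN : (mkB X hc).IsEquivNorm N) : ¬ (mkB X hc).IsAUC N := by
  refine noAUC hc M δ hδ (fun k => ?_) N hN
  obtain ⟨x, h1, h2, h3⟩ := h k
  refine ⟨fun j => x '' {v | v.length = j}, ⟨x [], [], rfl, rfl⟩, ?_, ?_⟩
  · rintro j hj _ ⟨v, hv, rfl⟩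
    have hv' : v.length = j := hv
    exact h1 v (by omega)
  · rintro j hj _ ⟨v, hv, rfl⟩ F hF ε hε
    have hv' : v.length = j := hv
    obtain ⟨a, s, hs, hle⟩ := hF.exists_close_of_weaklyNull (fun a => x (a :: v) - x v)
      (h3 v (by omega)) hε
    exact ⟨x (a :: v), ⟨a :: v, by simp [hv'], rfl⟩, s, hs, hle, h2 v a (by omega)⟩

theorem isEquivNorm_norm (hc : CompleteSpace X) : (mkB X hc).IsEquivNorm (mkB X hc).norm := by
  refine ⟨fun x y => norm_add_le (E := X) x y, fun a x => ?_, 1, 1, one_pos, fun x => ?_⟩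
  · exact (norm_smul (β := X) a x).trans (by rw [Real.norm_eq_abs]; rfl)
  · constructor
    · exact (one_mul _).le
    · exact (one_mul _).ge

/-- a space without equivalent AUC norm is infinite-dimensional -/
theorem not_finiteDimensional_of_noAUC (hc : CompleteSpace X)
    (h : ∀ N : X → ℝ, (mkB X hc).IsEquivNorm N → ¬ (mkB X hc).IsAUC N) :
    ¬ FiniteDimensional ℝ X := by
  intro hfd
  refine h _ (isEquivNorm_norm hc) ?_
  intro t _
  refine ⟨1, one_pos, fun x _ => ⟨((⊥ : Submodule ℝ X) : Set X), Cof.isCof hc ⟨by simp, ?_⟩, ?_⟩⟩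
  · exact Submodule.CoFG.of_finite
  · intro y hy hy1
    have hy0 : y = (0 : X) := by simpa using hy
    have : ‖(0 : X)‖ = 1 := by rw [← hy0]; exact hy1
    simp at this

end Crest.Agent.R125
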