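import Crest.Agent.R125.Basic
import Crest.Prelude.Def_DaugavetL1

/-!
Row 125: consequences of the Daugavet property for the asymptotic moduli.
-/

set_option autoImplicit false

namespace Crest.Agent.R125

open Filter Topology Crest.AnalysisR.L1Subspace
open scoped RealInnerProductSpace

variable {X : Type} [NormedAddCommGroup X] [NormedSpace ℝ X]

theorem daug_step (hD : HasDaugavetProperty X) (u : X) (hu : 1 ≤ ‖u‖) (φ : X →L[ℝ] ℝ)
    (hφ : ‖φ‖ = 1) {ε : ℝ} (hε : 0 < ε) :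
    ∃ z : X, ‖z‖ ≤ 1 ∧ 1 - ε ≤ φ z ∧ ‖u‖ + 1 - 2 * ε ≤ ‖u + z‖ := by
  have h1 := hD φ u
  rw [ContinuousLinearMap.norm_smulRight_apply, hφ, one_mul] at h1
  obtain ⟨z₀, hz₀, hz₀'⟩ := ContinuousLinearMap.exists_lt_apply_of_lt_opNorm
    (ContinuousLinearMap.id ℝ X + φ.smulRight u) (r := 1 + ‖u‖ - ε) (by rw [h1]; linarith)
  have key : ∃ z : X, ‖z‖ ≤ 1 ∧ 0 ≤ φ z ∧ 1 + ‖u‖ - ε < ‖z + φ z • u‖ := by
    simp only [ContinuousLinearMap.add_apply, ContinuousLinearMap.id_apply,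
      ContinuousLinearMap.smulRight_apply] at hz₀'
    rcases le_total 0 (φ z₀) with h | h
    · exact ⟨z₀, hz₀.le, h, hz₀'⟩
    · refine ⟨-z₀, by simpa using hz₀.le, by simpa using h, ?_⟩
      rw [map_neg, neg_smul, ← neg_add, norm_neg]
      exact hz₀'
  obtain ⟨z, hz, hφz, h⟩ := key
  have hφ1 : φ z ≤ 1 := by
    have := φ.le_opNorm z
    rw [hφ, one_mul, Real.norm_eq_abs] at this
    exact (le_abs_self _).trans (this.trans hz)
  have h2 : ‖z + φ z • u‖ ≤ 1 + φ z * ‖u‖ := by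
    refine (norm_add_le _ _).trans ?_
    rw [norm_smul, Real.norm_eq_abs, abs_of_nonneg hφz]
    linarith
  have h3 : (1 - φ z) * ‖u‖ < ε := by linarith
  have h4 : ‖z + φ z • u‖ ≤ ‖u + z‖ + (1 - φ z) * ‖u‖ := by
    have : z + φ z • u = (u + z) - (1 - φ z) • u := by
      rw [sub_smul, one_smul]; abel
    rw [this]
    refine (norm_sub_le _ _).trans ?_
    rw [norm_smul, Real.norm_eq_abs, abs_of_nonneg (by linarith)]
  refine ⟨z, hz, ?_, by linarith⟩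
  nlinarith

theorem daug_step' (hD : HasDaugavetProperty X) (u : X) (hu : 1 ≤ ‖u‖) (ψ : X →L[ℝ] ℝ)
    (x : X) (hx : ‖x‖ ≤ 1) {ε : ℝ} (hε : 0 < ε) :
    ∃ z : X, ‖z‖ ≤ 1 ∧ ψ x - ε ≤ ψ z ∧ ‖u‖ + 1 - ε ≤ ‖u + z‖ := by
  by_cases hψ : ψ = 0
  · obtain ⟨φ, hφ, -⟩ := exists_dual_vector ℝ u (by linarith)
    obtain ⟨z, hz, -, h⟩ := daug_step hD u hu φ hφ (half_pos hε)
    exact ⟨z, hz, by simp [hψ, hε.le], by linarith⟩
  · have hn : 0 < ‖ψ‖ := norm_pos_iff.2 hψ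
    have hφ : ‖‖ψ‖⁻¹ • ψ‖ = 1 := by
      rw [norm_smul, norm_inv, norm_norm, inv_mul_cancel₀ hn.ne']
    obtain ⟨z, hz, h1, h2⟩ := daug_step hD u hu _ hφ (ε := min (ε / 2) (ε / ‖ψ‖))
      (lt_min (half_pos hε) (by positivity))
    refine ⟨z, hz, ?_, by linarith [min_le_left (ε / 2) (ε / ‖ψ‖)]⟩
    simp only [ContinuousLinearMap.smul_apply, smul_eq_mul] at h1
    have h3 : 1 - ε / ‖ψ‖ ≤ ‖ψ‖⁻¹ * ψ z := by linarith [min_le_right (ε / 2) (ε / ‖ψ‖)]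
    have h4 := mul_le_mul_of_nonneg_left h3 hn.le
    rw [← mul_assoc, mul_inv_cancel₀ hn.ne', one_mul, mul_sub, mul_one,
      mul_div_cancel₀ _ hn.ne'] at h4
    have h5 : ψ x ≤ ‖ψ‖ := by
      have := ψ.le_opNorm x
      rw [Real.norm_eq_abs] at this
      exact (le_abs_self _).trans (this.trans (mul_le_of_le_one_right hn.le hx))
    linarith

theorem daug_greedy (hD : HasDaugavetProperty X) {H : Type} [NormedAddCommGroup H]
    [InnerProductSpace ℝ H] (π : X →L[ℝ] H) (x : X) (hx : ‖x‖ = 1) (n : ℕ) (hn : 1 ≤ n)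
    {ε : ℝ} (hε : 0 < ε) (hε1 : ε ≤ 1) (j : ℕ) :
    ∃ S : X, ‖S‖ ≤ j ∧ n + j * (1 - ε) ≤ ‖S - (n : ℝ) • x‖ ∧
      ‖π (S - (j : ℝ) • x)‖ ^ 2 ≤ j * ((2 * ‖π‖) ^ 2 + 2) := by
  induction j with
  | zero => exact ⟨0, by simp, by simp [norm_smul, hx], by simp⟩
  | succ j ih =>
    obtain ⟨S, h1, h2, h3⟩ := ih
    have hn' : (1 : ℝ) ≤ n := by exact_mod_cast hn
    have hu : 1 ≤ ‖S - (n : ℝ) • x‖ := by
      have : 0 ≤ (j : ℝ) * (1 - ε) := mul_nonneg (Nat.cast_nonneg _) (by linarith)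
      linarith
    set d := π (S - (j : ℝ) • x) with hd
    obtain ⟨z, hz, hz1, hz2⟩ := daug_step' hD _ hu (-((innerSL ℝ d).comp π)) x hx.le hε
    simp only [ContinuousLinearMap.neg_apply, ContinuousLinearMap.comp_apply,
      innerSL_apply_apply] at hz1
    refine ⟨S + z, ?_, ?_, ?_⟩
    · push_cast
      linarith [norm_add_le S z]
    · rw [show S + z - (n : ℝ) • x = S - (n : ℝ) • x + z by abel]
      push_cast
      linarith
    · have e1 : π (S + z - ((j + 1 : ℕ) : ℝ) • x) = d + π (z - x) := by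
        rw [hd, ← map_add]
        congr 1
        push_cast
        rw [add_smul, one_smul]
        abel
      rw [e1, norm_add_sq_real]
      have e2 : ⟪d, π (z - x)⟫ ≤ 1 := by
        rw [map_sub, inner_sub_right]
        linarith
      have e3 : ‖π (z - x)‖ ≤ 2 * ‖π‖ := by
        refine (π.le_opNorm _).trans ?_
        have : ‖z - x‖ ≤ 2 := by linarith [norm_sub_le z x]
        nlinarith [norm_nonneg π]
      have e4 := pow_le_pow_left₀ (norm_nonneg _) e3 2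
      push_cast
      linarith

/-- key consequence of the Daugavet property -/
theorem daug_key (hD : HasDaugavetProperty X) (x : X) (hx : ‖x‖ = 1) {F : Submodule ℝ X}
    (hF : Cof F) {η : ℝ} (hη : 0 < η) : ∃ y ∈ F, ‖y‖ = 1 ∧ ‖x + (2 : ℝ) • y‖ ≤ 1 + η := by
  obtain ⟨m, π, σ, h⟩ := hF.exists_decomp
  set ε := min (η / 3) (1 / 2) with hεdef
  have hε : 0 < ε := lt_min (by positivity) (by norm_num)
  have hε1 : ε ≤ 1 / 2 := min_le_right _ _
  have hε2 : ε ≤ η / 3 := min_le_left _ _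
  set C := (2 * ‖π‖) ^ 2 + 2 with hC
  obtain ⟨n, hn⟩ := exists_nat_gt (max 1 (‖σ‖ ^ 2 * C / ε ^ 2))
  have hn1 : (1 : ℝ) < n := (le_max_left _ _).trans_lt hn
  have hn2 : ‖σ‖ ^ 2 * C / ε ^ 2 < n := (le_max_right _ _).trans_lt hn
  have hnpos : (0 : ℝ) < n := by linarith
  obtain ⟨S, h1, h2, h3⟩ := daug_greedy hD π x hx n (by exact_mod_cast hn1.le) hε (by linarith) n
  set w := (n : ℝ)⁻¹ • (S - (n : ℝ) • x) with hw
  have hwx : x + w = (n : ℝ)⁻¹ • S := by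
    rw [hw, smul_sub, smul_smul, inv_mul_cancel₀ hnpos.ne', one_smul]; abel
  have hw1 : ‖x + w‖ ≤ 1 := by
    rw [hwx, norm_smul, norm_inv, Real.norm_natCast, inv_mul_le_iff₀ hnpos]
    linarith
  have hw2 : 2 - ε ≤ ‖w‖ := by
    rw [hw, norm_smul, norm_inv, Real.norm_natCast, le_inv_mul_iff₀ hnpos]
    linarith
  have hw3 : ‖w‖ ≤ 2 := by
    have := norm_sub_le (x + w) x
    rw [add_sub_cancel_left] at this
    linarith
  have hw4 : ‖σ (π w)‖ ≤ ε := by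
    have e1 : ‖π w‖ ^ 2 ≤ C / n := by
      rw [hw, map_smul, norm_smul, norm_inv, Real.norm_natCast, mul_pow, le_div_iff₀ hnpos]
      calc (n : ℝ)⁻¹ ^ 2 * ‖π (S - (n : ℝ) • x)‖ ^ 2 * n ≤ (n : ℝ)⁻¹ ^ 2 * (n * C) * n := by
            gcongr
        _ = C := by field_simp
    have e2 : ‖σ (π w)‖ ^ 2 ≤ ‖σ‖ ^ 2 * (C / n) := by
      calc ‖σ (π w)‖ ^ 2 ≤ (‖σ‖ * ‖π w‖) ^ 2 :=
            pow_le_pow_left₀ (norm_nonneg _) (σ.le_opNorm _) 2
        _ = ‖σ‖ ^ 2 * ‖π w‖ ^ 2 := by ring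
        _ ≤ _ := by gcongr
    have e3 : ‖σ‖ ^ 2 * (C / n) ≤ ε ^ 2 := by
      rw [div_lt_iff₀ (by positivity)] at hn2
      rw [← mul_div_assoc, div_le_iff₀ hnpos]
      linarith
    exact (pow_le_pow_iff_left₀ (norm_nonneg _) hε.le two_ne_zero).1 (e2.trans e3)
  set y₀ := w - σ (π w) with hy₀
  have hy1 : 2 - 2 * ε ≤ ‖y₀‖ := by
    have := norm_add_le y₀ (σ (π w))
    rw [hy₀, sub_add_cancel] at this
    linarith
  have hy2 : ‖y₀‖ ≤ 2 + ε := by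
    have := norm_sub_le w (σ (π w))
    linarith
  have hypos : 0 < ‖y₀‖ := by linarith
  refine ⟨‖y₀‖⁻¹ • y₀, F.smul_mem _ (h w), ?_, ?_⟩
  · rw [norm_smul, norm_inv, norm_norm, inv_mul_cancel₀ hypos.ne']
  · have e1 : x + (2 : ℝ) • ‖y₀‖⁻¹ • y₀ = (x + w) - σ (π w) + (2 * ‖y₀‖⁻¹ - 1) • y₀ := by
      rw [sub_smul, one_smul, smul_smul, hy₀]
      abel
    have e2 : ‖(2 * ‖y₀‖⁻¹ - 1) • y₀‖ ≤ 2 * ε := by
      rw [norm_smul, Real.norm_eq_abs, ← abs_norm y₀, ← abs_mul, abs_norm, sub_mul,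
        mul_assoc, inv_mul_cancel₀ hypos.ne', abs_le]
      constructor <;> linarith
    rw [e1]
    have e3 := norm_add_le ((x + w) - σ (π w)) ((2 * ‖y₀‖⁻¹ - 1) • y₀)
    have e4 := norm_sub_le (x + w) (σ (π w))
    linarith

theorem daug_oneSided (hD : HasDaugavetProperty X) (x : X) (hx : ‖x‖ = 1) {F : Submodule ℝ X}
    (hF : Cof F) {η : ℝ} (hη : 0 < η) {t : ℝ} (ht : 0 < t) :
    ∃ y ∈ F, ‖y‖ = 1 ∧ ‖x + t • y‖ - 1 ≤ max 0 (t - 2) + η := by
  obtain ⟨y, hyF, hy, h⟩ := daug_key hD x hx hF hη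
  refine ⟨y, hyF, hy, ?_⟩
  rcases le_total t 2 with h2 | h2
  · have e : x + t • y = (1 - t / 2) • x + (t / 2) • (x + (2 : ℝ) • y) := by
      rw [smul_add, ← add_assoc, ← add_smul, smul_smul]
      congr 2 <;> simp
    have e2 := norm_add_le ((1 - t / 2) • x) ((t / 2) • (x + (2 : ℝ) • y))
    rw [← e, norm_smul, norm_smul, hx, Real.norm_eq_abs, Real.norm_eq_abs,
      abs_of_nonneg (by linarith), abs_of_nonneg (by linarith)] at e2
    have e3 := mul_le_mul_of_nonneg_left h (show 0 ≤ t / 2 by linarith)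
    have e4 := le_max_left 0 (t - 2)
    nlinarith
  · have e : x + t • y = (x + (2 : ℝ) • y) + (t - 2) • y := by
      rw [add_assoc, ← add_smul]; congr 2; ring
    have e2 := norm_add_le (x + (2 : ℝ) • y) ((t - 2) • y)
    rw [← e, norm_smul, hy, Real.norm_eq_abs, abs_of_nonneg (by linarith)] at e2
    have e4 := le_max_right 0 (t - 2)
    linarith

theorem daug_noAUC (hc : CompleteSpace X) [Nontrivial X] (hD : HasDaugavetProperty X)
    (N : X → ℝ) (hN : (mkB X hc).IsEquivNorm N) : ¬ (mkB X hc).IsAUC N := by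
  refine noAUC hc 1 1 one_pos (fun k => ⟨fun _ => {x | ‖x‖ = 1}, ?_, ?_, ?_⟩) N hN
  · obtain ⟨x, hx⟩ := exists_norm_eq X zero_le_one
    exact ⟨x, hx⟩
  · intro _ _ x hx
    exact le_of_eq hx
  · intro _ _ x hx F hF ε hε
    have hx' : ‖x‖ = 1 := hx
    obtain ⟨y, hyF, hy, h⟩ := daug_key hD x hx' hF (lt_min hε one_pos)
    set w := x + (2 : ℝ) • y with hw
    have h2 : ‖(2 : ℝ) • y‖ = 2 := by rw [norm_smul, hy]; simp
    have hw1 : 1 ≤ ‖w‖ := by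
      have := norm_sub_le w x
      rw [hw, add_sub_cancel_left, h2, ← hw] at this
      linarith
    have hwpos : 0 < ‖w‖ := by linarith
    have e1 : ‖w‖⁻¹ • w - x - (2 : ℝ) • y = (‖w‖⁻¹ - 1) • w := by
      rw [sub_smul, one_smul, sub_sub]
    have e2 : ‖‖w‖⁻¹ • w - x - (2 : ℝ) • y‖ ≤ min ε 1 := by
      rw [e1, norm_smul, Real.norm_eq_abs, ← abs_norm w, ← abs_mul, abs_norm, sub_mul,
        inv_mul_cancel₀ hwpos.ne', abs_le]
      constructor <;> linarith [lt_min hε one_pos]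
    refine ⟨‖w‖⁻¹ • w, ?_, (2 : ℝ) • y, F.smul_mem _ hyF, e2.trans (min_le_left _ _), ?_⟩
    · show ‖‖w‖⁻¹ • w‖ = 1
      rw [norm_smul, norm_inv, norm_norm, inv_mul_cancel₀ hwpos.ne']
    · have := norm_sub_le (‖w‖⁻¹ • w - x) (‖w‖⁻¹ • w - x - (2 : ℝ) • y)
      rw [sub_sub_cancel, h2] at this
      linarith [min_le_right ε 1]

/-- a closed finite-codimensional subspace all of whose directions do not decrease the norm -/
theorem exists_cof_norm_le (x : X) :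
    ∃ F : Submodule ℝ X, Cof F ∧ ∀ y ∈ F, ‖x‖ ≤ ‖x + y‖ := by
  obtain ⟨φ, hφ, hφx⟩ := exists_dual_vector'' ℝ x
  refine ⟨_, cof_ker φ, fun y hy => ?_⟩
  have hy0 : φ y = 0 := hy
  have h1 := φ.le_opNorm (x + y)
  rw [map_add, hy0, add_zero, hφx] at h1
  simp only [RCLike.ofReal_real_eq_id, id_eq, norm_norm] at h1
  exact h1.trans (mul_le_of_le_one_left (norm_nonneg _) hφ)

end Crest.Agent.R125
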