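import Crest.Agent.R125.Tests
import Crest.Prelude.Def_Diamond

/-!
Row 125: distances in the countably branching diamonds and the distortion bound.
-/

set_option autoImplicit false

namespace Crest.Agent.R125

open Filter Topology Crest.AnalysisR

theorem src_ne_tgt : ∀ (k : ℕ) (e : DiamondEdge k), diamondSrc k e ≠ diamondTgt k e
  | 0, _ => by
    intro h
    exact Bool.false_ne_true h
  | k + 1, (e, i, b) => by
    cases b
    · exact Sum.inl_ne_inr
    · exact Sum.inr_ne_inl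

theorem adj_src_tgt (k : ℕ) (e : DiamondEdge k) :
    (diamondGraph k).Adj (diamondSrc k e) (diamondTgt k e) := by
  rw [diamondGraph, SimpleGraph.fromRel_adj]
  exact ⟨src_ne_tgt k e, Or.inl ⟨e, rfl, rfl⟩⟩

theorem adj_cases {k : ℕ} {u v : DiamondVertex k} (h : (diamondGraph k).Adj u v) :
    ∃ e, (diamondSrc k e = u ∧ diamondTgt k e = v) ∨ (diamondSrc k e = v ∧ diamondTgt k e = u) := by
  rw [diamondGraph, SimpleGraph.fromRel_adj] at h
  rcases h.2 with ⟨e, h⟩ | ⟨e, h⟩
  · exact ⟨e, Or.inl h⟩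
  · exact ⟨e, Or.inr h⟩

theorem adj_src_mid (k : ℕ) (e : DiamondEdge k) (i : ℕ) :
    (diamondGraph (k + 1)).Adj (Sum.inl (diamondSrc k e)) (Sum.inr (e, i)) :=
  adj_src_tgt (k + 1) (e, i, false)

theorem adj_mid_tgt (k : ℕ) (e : DiamondEdge k) (i : ℕ) :
    (diamondGraph (k + 1)).Adj (Sum.inr (e, i)) (Sum.inl (diamondTgt k e)) :=
  adj_src_tgt (k + 1) (e, i, true)

theorem diamond_connected : ∀ k : ℕ, (diamondGraph k).Connected
  | 0 => by
    have h : (diamondGraph 0).Adj false true := adj_src_tgt 0 ()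
    refine @SimpleGraph.Connected.mk _ _ ?_ ⟨false⟩
    intro u v
    cases u <;> cases v
    · rfl
    · exact h.reachable
    · exact h.symm.reachable
    · rfl
  | k + 1 => by
    have ih := diamond_connected k
    have h1 : ∀ u v : DiamondVertex k,
        (diamondGraph (k + 1)).Reachable (Sum.inl u) (Sum.inl v) := by
      intro u v
      obtain ⟨p⟩ := ih.preconnected u v
      induction p with
      | nil => rfl
      | cons h p ihp =>
        refine SimpleGraph.Reachable.trans ?_ ihp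
        obtain ⟨e, ⟨rfl, rfl⟩ | ⟨rfl, rfl⟩⟩ := adj_cases h
        · exact (adj_src_mid k e 0).reachable.trans (adj_mid_tgt k e 0).reachable
        · exact ((adj_src_mid k e 0).reachable.trans (adj_mid_tgt k e 0).reachable).symm
    have h2 : ∀ w : DiamondVertex (k + 1), ∃ u, (diamondGraph (k + 1)).Reachable (Sum.inl u) w := by
      rintro (u | ⟨e, i⟩)
      · exact ⟨u, by rfl⟩
      · exact ⟨_, (adj_src_mid k e i).reachable⟩
    obtain ⟨u0⟩ := ih.nonempty
    refine @SimpleGraph.Connected.mk _ _ ?_ ⟨Sum.inl u0⟩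
    intro w w'
    obtain ⟨u, hu⟩ := h2 w
    obtain ⟨u', hu'⟩ := h2 w'
    exact hu.symm.trans ((h1 u u').trans hu')

theorem dist_src_tgt (k : ℕ) (e : DiamondEdge k) :
    diamondDist k (diamondSrc k e) (diamondTgt k e) = 1 :=
  SimpleGraph.dist_eq_one_iff_adj.2 (adj_src_tgt k e)

theorem lip_le_length {V : Type} {G : SimpleGraph V} (φ : V → ℕ)
    (h : ∀ u v, G.Adj u v → φ v ≤ φ u + 1) {u v : V} (p : G.Walk u v) :
    φ v ≤ φ u + p.length := by
  induction p with
  | nil => simp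
  | cons ha p ih =>
    have := h _ _ ha
    simp only [SimpleGraph.Walk.length_cons]
    omega

theorem dist_inl (k : ℕ) (u v : DiamondVertex k) :
    2 * diamondDist k u v ≤ diamondDist (k + 1) (Sum.inl u) (Sum.inl v) := by
  let φ : DiamondVertex (k + 1) → ℕ := Sum.elim (fun w => 2 * diamondDist k u w)
    (fun q => diamondDist k u (diamondSrc k q.1) + diamondDist k u (diamondTgt k q.1))
  have hst : ∀ e : DiamondEdge k,
      diamondDist k u (diamondTgt k e) ≤ diamondDist k u (diamondSrc k e) + 1 ∧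
      diamondDist k u (diamondSrc k e) ≤ diamondDist k u (diamondTgt k e) + 1 := by
    intro e
    have h1 := (diamond_connected k).dist_triangle (u := u) (v := diamondSrc k e)
      (w := diamondTgt k e)
    have h2 := (diamond_connected k).dist_triangle (u := u) (v := diamondTgt k e)
      (w := diamondSrc k e)
    have h3 := dist_src_tgt k e
    unfold diamondDist at *
    rw [SimpleGraph.dist_comm (u := diamondTgt k e)] at h2
    omega
  have hφ : ∀ w w', (diamondGraph (k + 1)).Adj w w' → φ w' ≤ φ w + 1 := by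
    intro w w' h
    obtain ⟨⟨e, i, b⟩, ⟨rfl, rfl⟩ | ⟨rfl, rfl⟩⟩ := adj_cases h
    · have := hst e
      cases b
      · change diamondDist k u (diamondSrc k e) + diamondDist k u (diamondTgt k e) ≤
          2 * diamondDist k u (diamondSrc k e) + 1
        omega
      · change 2 * diamondDist k u (diamondTgt k e) ≤
          diamondDist k u (diamondSrc k e) + diamondDist k u (diamondTgt k e) + 1
        omega
    · have := hst e
      cases b
      · change 2 * diamondDist k u (diamondSrc k e) ≤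
          diamondDist k u (diamondSrc k e) + diamondDist k u (diamondTgt k e) + 1
        omega
      · change diamondDist k u (diamondSrc k e) + diamondDist k u (diamondTgt k e) ≤
          2 * diamondDist k u (diamondTgt k e) + 1
        omega
  obtain ⟨p, hp⟩ := (diamond_connected (k + 1)).exists_walk_length_eq_dist (Sum.inl u) (Sum.inl v)
  have h := lip_le_length φ hφ p
  rw [hp] at h
  change 2 * diamondDist k u v ≤ 2 * diamondDist k u u + _ at h
  have h0 : diamondDist k u u = 0 := SimpleGraph.dist_self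
  rw [h0, mul_zero, zero_add] at h
  exact h

theorem dist_mid (k : ℕ) (e : DiamondEdge k) {i l : ℕ} (hil : i ≠ l) :
    2 ≤ diamondDist (k + 1) (Sum.inr (e, i)) (Sum.inr (e, l)) := by
  have h0 : diamondDist (k + 1) (Sum.inr (e, i)) (Sum.inr (e, l)) ≠ 0 := by
    intro h
    have := ((diamond_connected (k + 1)).dist_eq_zero_iff).1 h
    exact hil (congrArg Prod.snd (Sum.inr_injective this))
  have h1 : diamondDist (k + 1) (Sum.inr (e, i)) (Sum.inr (e, l)) ≠ 1 := by
    intro h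
    have hadj := SimpleGraph.dist_eq_one_iff_adj.1 h
    obtain ⟨⟨e', i', b⟩, ⟨h1, h2⟩ | ⟨h1, h2⟩⟩ := adj_cases hadj
    · cases b
      · exact Sum.inl_ne_inr h1
      · exact Sum.inl_ne_inr h2
    · cases b
      · exact Sum.inl_ne_inr h1
      · exact Sum.inl_ne_inr h2
  omega

variable {X : Type} [NormedAddCommGroup X] [NormedSpace ℝ X]

/-- the asymptotic maximum-midpoint inequality, uniformly in the direction -/
def PropQ (X : Type) [NormedAddCommGroup X] [NormedSpace ℝ X] : Prop :=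
  ∀ x : X, ∀ η : ℝ, 0 < η → ∃ F : Submodule ℝ X, Cof F ∧ ∀ y ∈ F,
    Real.sqrt (‖x‖ ^ 2 + ‖y‖ ^ 2 / 4) - η ≤ max ‖x + y‖ ‖x - y‖

theorem diamond_step (hQ : PropQ X) (a b : X) (m : ℕ → X) {L s : ℝ} (hs : 0 < s)
    (h1 : ∀ i, ‖a - m i‖ ≤ L) (h2 : ∀ i, ‖m i - b‖ ≤ L)
    (h3 : ∀ i l, i ≠ l → 2 * s ≤ ‖m i - m l‖) : ‖a - b‖ ^ 2 + s ^ 2 ≤ 4 * L ^ 2 := by
  have hL : 0 ≤ L := (norm_nonneg _).trans (h1 0)
  set x := (1 / 2 : ℝ) • (a - b) with hx
  have hxn : ‖x‖ = ‖a - b‖ / 2 := by
    rw [hx, norm_smul, Real.norm_of_nonneg (by norm_num)]; ring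
  have key : ∀ η : ℝ, 0 < η → η ≤ s → ‖x‖ ^ 2 + (s - η) ^ 2 / 4 ≤ (L + 2 * η) ^ 2 := by
    intro η hη hηs
    obtain ⟨F, hF, h⟩ := hQ x η hη
    obtain ⟨i, l, hil, y, hy, hc⟩ := hF.exists_pair_close (fun i => (1 / 2 : ℝ) • (a - m i))
      (R := L) (fun i => by
        rw [norm_smul, Real.norm_of_nonneg (by norm_num)]
        linarith [h1 i]) hη
    set w := (1 / 2 : ℝ) • (a - m i) - (1 / 2 : ℝ) • (a - m l) with hw
    have hw1 : s ≤ ‖w‖ := by
      have : w = (1 / 2 : ℝ) • (m l - m i) := by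
        rw [hw, ← smul_sub]; congr 1; abel
      rw [this, norm_smul, Real.norm_of_nonneg (by norm_num)]
      linarith [h3 l i hil.symm]
    have hy1 : s - η ≤ ‖y‖ := by
      have := norm_add_le (w - y) y
      rw [sub_add_cancel] at this
      linarith
    have e1 : ‖x + w‖ ≤ L := by
      have : x + w = (1 / 2 : ℝ) • ((a - m i) + (m l - b)) := by
        rw [hx, hw, ← smul_sub, ← smul_add]; congr 1; abel
      rw [this, norm_smul, Real.norm_of_nonneg (by norm_num)]
      linarith [norm_add_le (a - m i) (m l - b), h1 i, h2 l]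
    have e2 : ‖x - w‖ ≤ L := by
      have : x - w = (1 / 2 : ℝ) • ((a - m l) + (m i - b)) := by
        rw [hx, hw, ← smul_sub, ← smul_sub]; congr 1; abel
      rw [this, norm_smul, Real.norm_of_nonneg (by norm_num)]
      linarith [norm_add_le (a - m l) (m i - b), h1 l, h2 i]
    have e3 : ‖x + y‖ ≤ L + η := by
      have := norm_sub_le (x + w) (w - y)
      rw [show x + w - (w - y) = x + y by abel] at this
      linarith
    have e4 : ‖x - y‖ ≤ L + η := by
      have := norm_add_le (x - w) (w - y)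
      rw [show x - w + (w - y) = x - y by abel] at this
      linarith
    have e5 : Real.sqrt (‖x‖ ^ 2 + ‖y‖ ^ 2 / 4) ≤ L + 2 * η := by
      have := h y hy
      have := max_le e3 e4
      linarith
    have e6 := (Real.sqrt_le_iff.1 e5).2
    have e7 := pow_le_pow_left₀ (by linarith) hy1 2
    linarith
  have hlim : ‖x‖ ^ 2 + (s - 0) ^ 2 / 4 ≤ (L + 2 * 0) ^ 2 := by
    have c1 : ContinuousWithinAt (fun η : ℝ => ‖x‖ ^ 2 + (s - η) ^ 2 / 4) (Set.Ioi 0) 0 :=
      (by fun_prop : Continuous fun η : ℝ => ‖x‖ ^ 2 + (s - η) ^ 2 / 4).continuousWithinAt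
    have c2 : ContinuousWithinAt (fun η : ℝ => (L + 2 * η) ^ 2) (Set.Ioi 0) 0 :=
      (by fun_prop : Continuous fun η : ℝ => (L + 2 * η) ^ 2).continuousWithinAt
    refine le_of_tendsto_of_tendsto c1 c2 ?_
    filter_upwards [Ioc_mem_nhdsGT hs] with η hη
    exact key η hη.1 hη.2
  rw [hxn] at hlim
  nlinarith

theorem diamond_bound (hQ : PropQ X) : ∀ (k : ℕ) (f : DiamondVertex k → X) (s L2 : ℝ), 0 < s →
    (∀ u v, s * (diamondDist k u v : ℝ) ≤ ‖f u - f v‖) →
    (∀ e, ‖f (diamondSrc k e) - f (diamondTgt k e)‖ ^ 2 ≤ L2) → s ^ 2 * (1 + (k : ℝ) / 4) ≤ L2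
  | 0, f, s, L2, hs, h1, h2 => by
    have e1 := h1 (diamondSrc 0 ()) (diamondTgt 0 ())
    rw [dist_src_tgt] at e1
    have e2 := h2 ()
    have e3 := pow_le_pow_left₀ (by positivity) e1 2
    simp only [Nat.cast_one, mul_one] at e3
    simp only [Nat.cast_zero, zero_div, add_zero, mul_one]
    linarith
  | k + 1, f, s, L2, hs, h1, h2 => by
    have hL : ∀ e, ‖f (diamondSrc (k + 1) e) - f (diamondTgt (k + 1) e)‖ ≤ Real.sqrt L2 :=
      fun e => Real.le_sqrt_of_sq_le (h2 e)
    have ih := diamond_bound hQ k (fun u => f (Sum.inl u)) (2 * s) (4 * L2 - s ^ 2)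
      (by positivity) (fun u v => by
        refine le_trans ?_ (h1 _ _)
        have : ((2 * diamondDist k u v : ℕ) : ℝ) ≤
          (diamondDist (k + 1) (Sum.inl u) (Sum.inl v) : ℝ) := by exact_mod_cast dist_inl k u v
        push_cast at this
        nlinarith) (fun e => by
        have hL2 : 0 ≤ L2 := (sq_nonneg _).trans (h2 (e, 0, false))
        have := diamond_step hQ (f (Sum.inl (diamondSrc k e))) (f (Sum.inl (diamondTgt k e)))
          (fun i => f (Sum.inr (e, i))) hs (fun i => hL (e, i, false)) (fun i => hL (e, i, true))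
          (fun i l hil => by
            refine le_trans ?_ (h1 _ _)
            have : ((2 : ℕ) : ℝ) ≤
              (diamondDist (k + 1) (Sum.inr (e, i)) (Sum.inr (e, l)) : ℝ) := by
              exact_mod_cast dist_mid k e hil
            push_cast at this
            nlinarith)
        rw [Real.sq_sqrt hL2] at this
        linarith)
    push_cast
    nlinarith

theorem distortion_bound (hc : CompleteSpace X) (hQ : PropQ X) (k : ℕ) (f : DiamondVertex k → X)
    (D : ℝ) (h : (mkB X hc).HasDistortionLE k f D) : 1 + (k : ℝ) / 4 ≤ D ^ 2 := by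
  obtain ⟨s, hs, h⟩ := h
  change ∀ u v : DiamondVertex k, s * (diamondDist k u v : ℝ) ≤ ‖f u - f v‖ ∧
    ‖f u - f v‖ ≤ D * s * (diamondDist k u v : ℝ) at h
  have := diamond_bound hQ k f s ((D * s) ^ 2) hs (fun u v => (h u v).1) (fun e => by
    have e1 := (h (diamondSrc k e) (diamondTgt k e)).2
    rw [dist_src_tgt, Nat.cast_one, mul_one] at e1
    exact pow_le_pow_left₀ (norm_nonneg _) e1 2)
  have hs2 : 0 < s ^ 2 := by positivity
  rw [mul_pow, mul_comm (D ^ 2)] at this
  exact le_of_mul_le_mul_left this hs2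

theorem moduli_of_propQ (hc : CompleteSpace X) (hQ : PropQ X)
    (hK : ∀ x : X, ∃ F : Submodule ℝ X, Cof F ∧ ∀ y ∈ F, ‖x‖ ≤ ‖x + y‖) {t : ℝ} (ht : 0 < t) :
    (mkB X hc).MidpointModulusGE (mkB X hc).norm t (Real.sqrt (1 + t ^ 2 / 12) - 1) ∧
      (mkB X hc).MidpointModulusGE (mkB X hc).norm t ((Real.sqrt (1 + t ^ 2 / 4) - 1) / 2) ∧
      (mkB X hc).MaxMidpointModulusGE (mkB X hc).norm t (Real.sqrt (1 + t ^ 2 / 4) - 1) := by
  have key : ∀ x : X, ‖x‖ = 1 → ∀ η : ℝ, 0 < η → ∃ F : Submodule ℝ X, Cof F ∧ ∀ y ∈ F, ‖y‖ = 1 →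
      Real.sqrt (1 + t ^ 2 / 4) - η ≤ max ‖x + t • y‖ ‖x - t • y‖ ∧ 1 ≤ ‖x + t • y‖ ∧
        1 ≤ ‖x - t • y‖ ∧ 2 * t ≤ ‖x + t • y‖ + ‖x - t • y‖ := by
    intro x hx η hη
    obtain ⟨F, hF, h⟩ := hQ x η hη
    obtain ⟨F', hF', h'⟩ := hK x
    refine ⟨F ⊓ F', hF.inf hF', fun y hy hy1 => ⟨?_, ?_, ?_, ?_⟩⟩
    · have := h _ (F.smul_mem t hy.1)
      rwa [norm_smul, hy1, hx, Real.norm_of_nonneg ht.le, mul_one, one_pow] at this
    · rw [← hx]; exact h' _ (F'.smul_mem t hy.2)
    · rw [← hx, sub_eq_add_neg]; exact h' _ (F'.neg_mem (F'.smul_mem t hy.2))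
    · have h2 := norm_sub_le (x + t • y) (x - t • y)
      rwa [show x + t • y - (x - t • y) = (2 * t) • y by
        rw [two_mul, add_smul]; abel, norm_smul, hy1, Real.norm_of_nonneg (by linarith),
        mul_one] at h2
  set r := Real.sqrt (1 + t ^ 2 / 4) with hr
  have hr2 : r ^ 2 = 1 + t ^ 2 / 4 := Real.sq_sqrt (by positivity)
  have hr1 : 1 ≤ r := Real.le_sqrt_of_sq_le (by nlinarith [sq_nonneg t])
  have hcmp : Real.sqrt (1 + t ^ 2 / 12) ≤ max ((1 + r) / 2) t := by
    rcases le_total r 5 with h5 | h5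
    · refine le_trans ?_ (le_max_left _ _)
      rw [Real.sqrt_le_iff]
      refine ⟨by linarith, ?_⟩
      nlinarith
    · refine le_trans ?_ (le_max_right _ _)
      rw [Real.sqrt_le_iff]
      refine ⟨ht.le, ?_⟩
      nlinarith
  refine ⟨?_, ?_, ?_⟩
  · intro x hx η hη
    obtain ⟨F, hF, h⟩ := key x hx η hη
    refine ⟨_, hF.isCof hc, fun y hy hy1 => ?_⟩
    obtain ⟨h1, h2, h3, h4⟩ := h y hy hy1
    change _ ≤ (‖(x : X) + t • (y : X)‖ + ‖(x : X) - t • (y : X)‖) / 2 - 1
    rcases max_cases ‖(x : X) + t • (y : X)‖ ‖(x : X) - t • (y : X)‖ with h5 | h5 <;>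
      rw [h5.1] at h1 <;> rcases max_cases ((1 + r) / 2) t with h6 | h6 <;>
      rw [h6.1] at hcmp <;> linarith
  · intro x hx η hη
    obtain ⟨F, hF, h⟩ := key x hx η hη
    refine ⟨_, hF.isCof hc, fun y hy hy1 => ?_⟩
    obtain ⟨h1, h2, h3, h4⟩ := h y hy hy1
    change _ ≤ (‖(x : X) + t • (y : X)‖ + ‖(x : X) - t • (y : X)‖) / 2 - 1
    rcases max_cases ‖(x : X) + t • (y : X)‖ ‖(x : X) - t • (y : X)‖ with h5 | h5 <;>
      rw [h5.1] at h1 <;> linarith
  · intro x hx η hη
    obtain ⟨F, hF, h⟩ := key x hx η hη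
    refine ⟨_, hF.isCof hc, fun y hy hy1 => ?_⟩
    obtain ⟨h1, h2, h3, h4⟩ := h y hy hy1
    change _ ≤ max ‖(x : X) + t • (y : X)‖ ‖(x : X) - t • (y : X)‖ - 1
    linarith

end Crest.Agent.R125
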