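import Crest.Agent.R125.Basic
import Crest.Prelude.Def_DaugavetL1

/-!
Row 125: the lower bound `t / 2` for the averaged modulus in measure-compact subspaces of `L¹`.
-/

set_option autoImplicit false

namespace Crest.Agent.R125

open Filter Topology MeasureTheory Crest.AnalysisR.L1Subspace

variable {Ω : Type} [MeasurableSpace Ω]

/-- the sign of a representative -/
noncomputable def sgnF (P : Measure Ω) (g : Lp ℝ 1 P) (z : Ω) : ℝ := if 0 ≤ g z then 1 else -1

theorem measurable_sgnF (P : Measure Ω) (g : Lp ℝ 1 P) : Measurable (sgnF P g) :=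
  Measurable.ite (measurableSet_le measurable_const (Lp.stronglyMeasurable g).measurable)
    measurable_const measurable_const

theorem norm_sgnF (P : Measure Ω) (g : Lp ℝ 1 P) (z : Ω) : ‖sgnF P g z‖ = 1 := by
  unfold sgnF
  split_ifs <;> simp

theorem integrable_sgnF_mul (P : Measure Ω) (g f : Lp ℝ 1 P) :
    Integrable (fun z => sgnF P g z * f z) P :=
  (L1.integrable_coeFn f).bdd_mul (measurable_sgnF P g).aestronglyMeasurable
    (Eventually.of_forall fun z => (norm_sgnF P g z).le)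

/-- integration against the sign of `g` -/
noncomputable def sgnFun (P : Measure Ω) (g : Lp ℝ 1 P) : Lp ℝ 1 P →L[ℝ] ℝ :=
  LinearMap.mkContinuous
    { toFun := fun f => ∫ z, sgnF P g z * f z ∂P
      map_add' := fun f₁ f₂ => by
        rw [← integral_add (integrable_sgnF_mul P g f₁) (integrable_sgnF_mul P g f₂)]
        refine integral_congr_ae ?_
        filter_upwards [Lp.coeFn_add f₁ f₂] with z hz
        rw [hz, Pi.add_apply, mul_add]
      map_smul' := fun c f => by
        rw [RingHom.id_apply, smul_eq_mul, ← integral_const_mul]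
        refine integral_congr_ae ?_
        filter_upwards [Lp.coeFn_smul c f] with z hz
        rw [hz, Pi.smul_apply, smul_eq_mul]
        ring } 1 (fun f => by
      rw [one_mul, L1.norm_eq_integral_norm]
      refine (norm_integral_le_integral_norm _).trans (le_of_eq ?_)
      congr 1
      funext z
      rw [norm_mul, norm_sgnF, one_mul])

theorem sgnFun_apply (P : Measure Ω) (g f : Lp ℝ 1 P) :
    sgnFun P g f = ∫ z, sgnF P g z * f z ∂P := rfl

theorem exists_small_setIntegral (P : Measure Ω) (x : Lp ℝ 1 P) {η : ℝ} (hη : 0 < η) :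
    ∃ δ : ℝ, 0 < δ ∧ ∀ A : Set Ω, P A < ENNReal.ofReal δ → ∫ z in A, ‖x z‖ ∂P ≤ η := by
  have hi := (L1.integrable_coeFn x)
  obtain ⟨δ, hδ, h⟩ := exists_pos_setLIntegral_lt_of_measure_lt (μ := P)
    (f := fun z => ‖x z‖ₑ) hi.2.ne (ε := ENNReal.ofReal η) (by simpa using hη)
  obtain ⟨δ', hδ'0, hδ'⟩ : ∃ δ' : ℝ, 0 < δ' ∧ ENNReal.ofReal δ' ≤ δ := by
    by_cases ht : δ = ⊤
    · exact ⟨1, one_pos, by simp [ht]⟩
    · exact ⟨δ.toReal, ENNReal.toReal_pos hδ.ne' ht, by rw [ENNReal.ofReal_toReal ht]⟩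
  refine ⟨δ', hδ'0, fun A hA => ?_⟩
  have h1 := h A (hA.trans_le hδ')
  rw [integral_norm_eq_lintegral_enorm hi.aestronglyMeasurable.restrict]
  exact ENNReal.toReal_le_of_le_ofReal hη.le h1.le

theorem exists_of_measureDist_lt (P : Measure Ω) [IsProbabilityMeasure P] (f g : Lp ℝ 1 P)
    {ε : ℝ} (h : measureDist P f g < ε) :
    ∃ a : ℝ, 0 < a ∧ a < ε ∧ P {z | a < |f z - g z|} < ENNReal.ofReal a := by
  obtain ⟨a, ⟨ha, ha'⟩, hlt⟩ := exists_lt_of_csInf_lt (s := {a : ℝ | 0 < a ∧
      P {z | a < abs ((f : Ω → ℝ) z - (g : Ω → ℝ) z)} < ENNReal.ofReal a})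
    ⟨2, by norm_num, (prob_le_one).trans_lt (by simp)⟩ h
  exact ⟨a, ha, hlt, ha'⟩

theorem avg_ge_half (P : Measure Ω) [IsProbabilityMeasure P] (x y g : Lp ℝ 1 P) (hy : ‖y‖ = 1)
    (hgy : sgnFun P g y = 0) {a t : ℝ} (ha : 0 < a) (ht : 0 < t) :
    ‖x‖ - ∫ z in {z | a < |y z - g z|}, ‖x z‖ ∂P + t * (1 / 2 - a) ≤
      (‖x + t • y‖ + ‖x - t • y‖) / 2 := by
  set A := {z | a < |y z - g z|} with hA
  have hAm : MeasurableSet A := measurableSet_lt measurable_const
    ((Lp.stronglyMeasurable y).measurable.sub (Lp.stronglyMeasurable g).measurable).abs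
  have ix := (L1.integrable_coeFn x).norm
  have iy := (L1.integrable_coeFn y).norm
  have iAx := ix.indicator hAm
  have iAy := iy.indicator hAm
  have h1 : ∫ z, (‖y z‖ - 2 * a - 2 * A.indicator (fun z => ‖y z‖) z) ∂P ≤
      ∫ z, sgnF P g z * y z ∂P := by
    refine integral_mono ((iy.sub (integrable_const _)).sub (iAy.const_mul 2))
      (integrable_sgnF_mul P g y) fun z => ?_
    simp only [sgnF, Real.norm_eq_abs]
    have e1 := le_abs_self (y z)
    have e2 := neg_abs_le (y z)
    by_cases hz : z ∈ A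
    · rw [Set.indicator_of_mem hz]
      split_ifs <;> linarith
    · rw [Set.indicator_of_notMem hz]
      have hz' : |y z - g z| ≤ a := not_lt.1 hz
      rw [abs_le] at hz'
      have e3 : |y z| ≤ y z + 2 * a ∨ g z < 0 := by
        by_cases h0 : 0 ≤ g z
        · left; rw [abs_le]; constructor <;> linarith [hz'.1, hz'.2]
        · right; exact not_le.1 h0
      split_ifs with h0
      · rcases e3 with e3 | e3 <;> linarith
      · have : |y z| ≤ - y z + 2 * a := by
          rw [abs_le]; constructor <;> linarith [hz'.1, hz'.2, not_le.1 h0]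
        linarith
  have iy2 : Integrable (fun z => ‖y z‖ - 2 * a) P := iy.sub (integrable_const _)
  have ix2 : Integrable (fun z => ‖x z‖ - A.indicator (fun z => ‖x z‖) z) P := ix.sub iAx
  rw [← sgnFun_apply, hgy, integral_sub iy2 (iAy.const_mul 2),
    integral_sub iy (integrable_const _), integral_const_mul, integral_const_mul,
    ← L1.norm_eq_integral_norm, hy] at h1
  simp only [integral_const, probReal_univ, smul_eq_mul, one_mul] at h1
  have h2 : ∫ z, (‖x z‖ - A.indicator (fun z => ‖x z‖) z + t * A.indicator (fun z => ‖y z‖) z) ∂P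
      ≤ ∫ z, (‖(x + t • y : Lp ℝ 1 P) z‖ + ‖(x - t • y : Lp ℝ 1 P) z‖) / 2 ∂P := by
    refine integral_mono_ae ((ix.sub iAx).add (iAy.const_mul t))
      (((L1.integrable_coeFn _).norm.add (L1.integrable_coeFn _).norm).div_const 2) ?_
    filter_upwards [Lp.coeFn_add x (t • y), Lp.coeFn_sub x (t • y), Lp.coeFn_smul t y]
      with z h1 h2 h3
    rw [h1, h2, Pi.add_apply, Pi.sub_apply, h3, Pi.smul_apply, smul_eq_mul]
    by_cases hz : z ∈ A
    · rw [Set.indicator_of_mem hz, Set.indicator_of_mem hz]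
      have := norm_sub_le (x z + t * y z) (x z - t * y z)
      rw [show x z + t * y z - (x z - t * y z) = 2 * (t * y z) by ring, norm_mul, norm_mul,
        Real.norm_of_nonneg ht.le, Real.norm_two] at this
      linarith
    · rw [Set.indicator_of_notMem hz, Set.indicator_of_notMem hz]
      have := norm_add_le (x z + t * y z) (x z - t * y z)
      rw [show x z + t * y z + (x z - t * y z) = 2 * (x z) by ring, norm_mul,
        Real.norm_two] at this
      linarith
  rw [integral_add ix2 (iAy.const_mul t), integral_sub ix iAx, integral_const_mul,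
    integral_div, integral_add (L1.integrable_coeFn _).norm (L1.integrable_coeFn _).norm,
    ← L1.norm_eq_integral_norm, ← L1.norm_eq_integral_norm, ← L1.norm_eq_integral_norm,
    integral_indicator hAm] at h2
  have h3 : 1 / 2 - a ≤ ∫ z, A.indicator (fun z => ‖y z‖) z ∂P := by linarith
  have h4 := mul_le_mul_of_nonneg_left h3 ht.le
  linarith

theorem exists_cof_half (P : Measure Ω) [IsProbabilityMeasure P] (E : Submodule ℝ (Lp ℝ 1 P))
    (htb : UnitBallTotallyBoundedInMeasure P E) (x : E) {t η : ℝ} (ht : 0 < t) (hη : 0 < η) :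
    ∃ F : Submodule ℝ E, Cof F ∧ ∀ y ∈ F, ‖y‖ = 1 →
      ‖x‖ + t / 2 - η ≤ (‖x + t • y‖ + ‖x - t • y‖) / 2 := by
  obtain ⟨δ, hδ, hsmall⟩ := exists_small_setIntegral P (x : Lp ℝ 1 P) (half_pos hη)
  obtain ⟨s, -, hs⟩ := htb (min δ (η / (2 * t))) (lt_min hδ (by positivity))
  obtain ⟨F, hF, hF0⟩ := exists_cof_of_finset s (fun g => (sgnFun P g).comp E.subtypeL)
  refine ⟨F, hF, fun y hy hy1 => ?_⟩
  obtain ⟨g, hg, hd⟩ := hs y y.2 hy1.le
  obtain ⟨a, ha, ha1, ha2⟩ := exists_of_measureDist_lt P _ _ hd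
  have h1 := avg_ge_half P (x : Lp ℝ 1 P) y g hy1 (hF0 y hy g hg) ha ht
  have h2 := hsmall _ (ha2.trans_le (ENNReal.ofReal_le_ofReal
    (ha1.le.trans (min_le_left _ _))))
  have h3 : t * a ≤ η / 2 := by
    have := mul_le_mul_of_nonneg_left (ha1.le.trans (min_le_right _ _)) ht.le
    rwa [show t * (η / (2 * t)) = η / 2 by field_simp] at this
  change ‖(x : Lp ℝ 1 P)‖ + t / 2 - η ≤
    (‖(x : Lp ℝ 1 P) + t • (y : Lp ℝ 1 P)‖ + ‖(x : Lp ℝ 1 P) - t • (y : Lp ℝ 1 P)‖) / 2
  linarith

end Crest.Agent.R125
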