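import Crest.Agent.R125.Diamond

/-!
Row 125: the asymptotic midpoint inequality passes to `ℓ²`-sums.
-/

set_option autoImplicit false

namespace Crest.Agent.R125

open Filter Topology Submodule

section

variable {κ : Type} [DecidableEq κ] {E : κ → Type} [∀ k, NormedAddCommGroup (E k)]
  [∀ k, NormedSpace ℝ (E k)]

theorem mem_of_single_mem (M : Submodule ℝ (lp E 2)) (hM : IsClosed (M : Set (lp E 2)))
    (h : ∀ k (a : E k), lp.single 2 k a ∈ M) (x : lp E 2) : x ∈ M :=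
  hM.mem_of_tendsto (lp.hasSum_single (by simp) x)
    (Eventually.of_forall fun _ => Submodule.sum_mem _ fun k _ => h k _)

omit [DecidableEq κ] [∀ k, NormedSpace ℝ (E k)] in
theorem hasSum_sq (x : lp E 2) : HasSum (fun k => ‖x k‖ ^ 2) (‖x‖ ^ 2) := by
  have := lp.hasSum_norm (p := 2) (by simp) x
  simpa using this

/-- the coordinate vectors of an `ℓ²`-sum -/
noncomputable def bigE {ι : Type} (e : ∀ k, ι → E k) (q : κ × ι) : lp E 2 :=
  lp.single 2 q.1 (e q.1 q.2)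

theorem dense_bigE {ι : Type} (e : ∀ k, ι → E k)
    (hd : ∀ k, Dense (span ℝ (Set.range (e k)) : Set (E k))) :
    Dense (span ℝ (Set.range (bigE e)) : Set (lp E 2)) := by
  intro x
  refine mem_of_single_mem (span ℝ (Set.range (bigE e))).topologicalClosure
    (Submodule.isClosed_topologicalClosure _) (fun k a => ?_) x
  refine map_mem_of_closure (lp.singleContinuousLinearMap ℝ E 2 k) (Set.range (e k)) _
    (Submodule.isClosed_topologicalClosure _) ?_ a (hd k a)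
  rintro _ ⟨s, rfl⟩
  exact Submodule.le_topologicalClosure _ (subset_span ⟨(k, s), rfl⟩)

theorem eval_bigE_mem {ι : Type} (e : ∀ k, ι → E k) (k : κ) (S : Set (κ × ι)) (T : Set ι)
    (h : ∀ s, (k, s) ∈ S → s ∈ T) {x : lp E 2}
    (hx : x ∈ (span ℝ (bigE e '' S)).topologicalClosure) :
    x k ∈ (span ℝ (e k '' T)).topologicalClosure := by
  refine map_mem_of_closure (lp.evalCLM ℝ E 2 k) _ _
    (Submodule.isClosed_topologicalClosure _) ?_ x hx
  rintro _ ⟨⟨k', s⟩, hs, rfl⟩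
  change (lp.single 2 k' (e k' s) : lp E 2) k ∈ _
  by_cases hk : k = k'
  · subst hk
    rw [lp.single_apply_self]
    exact Submodule.le_topologicalClosure _ (subset_span ⟨s, h s hs, rfl⟩)
  · rw [lp.single_apply_ne _ _ _ hk]
    exact Submodule.zero_mem _

theorem propQ_lp (e : ∀ k, List ℕ → E k)
    (hd : ∀ k, Dense (span ℝ (Set.range (e k)) : Set (E k)))
    (havg : ∀ k (T : Finset (List ℕ)), [] ∈ T → (∀ a v, a :: v ∈ T → v ∈ T) → ∀ x y : E k,
      x ∈ (span ℝ (e k '' (T : Set (List ℕ)))).topologicalClosure →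
      y ∈ (span ℝ (e k '' (T : Set (List ℕ))ᶜ)).topologicalClosure →
      Real.sqrt (‖x‖ ^ 2 + ‖y‖ ^ 2 / 4) ≤ (‖x + y‖ + ‖x - y‖) / 2) : PropQ (lp E 2) := by
  intro x η hη
  obtain ⟨A, x', hx', hxx'⟩ := exists_approx (bigE e) (dense_bigE e hd) x (half_pos hη)
  obtain ⟨T, hAT, hT0, hT⟩ := exists_closed_superset (A.image Prod.snd)
  refine ⟨_, cof_compl (bigE e) (dense_bigE e hd) (A.image Prod.fst ×ˢ T), fun y hy => ?_⟩
  have hx'' := Submodule.le_topologicalClosure _ hx'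
  have hk : ∀ k, 2 * ‖x' k‖ ^ 2 + ‖y k‖ ^ 2 / 2 ≤ ‖(x' + y) k‖ ^ 2 + ‖(x' - y) k‖ ^ 2 := by
    intro k
    rw [lp.coeFn_add, lp.coeFn_sub, Pi.add_apply, Pi.sub_apply]
    by_cases hkA : k ∈ A.image Prod.fst
    · have h1 := havg k T hT0 hT (x' k) (y k)
        (eval_bigE_mem e k _ _ (fun s hs => hAT (Finset.mem_image.2 ⟨_, hs, rfl⟩)) hx'')
        (eval_bigE_mem e k ((A.image Prod.fst ×ˢ T : Finset (κ × List ℕ)) : Set (κ × List ℕ))ᶜ _
          (fun s hs hs' => hs (Finset.mem_product.2 ⟨hkA, hs'⟩)) hy)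
      have h2 := (Real.sqrt_le_iff.1 h1).2
      nlinarith [sq_nonneg (‖x' k + y k‖ - ‖x' k - y k‖)]
    · have h1 := eval_bigE_mem e k _ ∅
        (fun s hs => (hkA (Finset.mem_image.2 ⟨_, hs, rfl⟩)).elim) hx''
      have h2 : x' k = 0 := by
        have h3 : x' k ∈ closure ((span ℝ (e k '' ∅) : Submodule ℝ (E k)) : Set (E k)) := h1
        simpa using h3
      rw [h2, zero_add, zero_sub, norm_neg, norm_zero]
      nlinarith [sq_nonneg ‖y k‖]
  have hsum : 2 * ‖x'‖ ^ 2 + ‖y‖ ^ 2 / 2 ≤ ‖x' + y‖ ^ 2 + ‖x' - y‖ ^ 2 :=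
    hasSum_le hk (((hasSum_sq x').mul_left 2).add ((hasSum_sq y).div_const 2))
      ((hasSum_sq _).add (hasSum_sq _))
  have h1 : Real.sqrt (‖x'‖ ^ 2 + ‖y‖ ^ 2 / 4) ≤ max ‖x' + y‖ ‖x' - y‖ := by
    rw [Real.sqrt_le_iff]
    refine ⟨le_max_of_le_left (norm_nonneg _), ?_⟩
    have e1 := pow_le_pow_left₀ (norm_nonneg _) (le_max_left ‖x' + y‖ ‖x' - y‖) 2
    have e2 := pow_le_pow_left₀ (norm_nonneg _) (le_max_right ‖x' + y‖ ‖x' - y‖) 2
    linarith
  have h2 := sqrt_lip ‖x‖ ‖x'‖ (‖y‖ ^ 2 / 4) (by positivity)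
  have h3 := abs_norm_sub_norm_le x x'
  have h4 : ‖x' + y‖ ≤ ‖x + y‖ + ‖x - x'‖ := by
    have := norm_sub_le (x + y) (x - x')
    rwa [show x + y - (x - x') = x' + y by abel] at this
  have h5 : ‖x' - y‖ ≤ ‖x - y‖ + ‖x - x'‖ := by
    have := norm_sub_le (x - y) (x - x')
    rwa [show x - y - (x - x') = x' - y by abel] at this
  have h6 := le_max_left ‖x + y‖ ‖x - y‖
  have h7 := le_max_right ‖x + y‖ ‖x - y‖
  have h8 : max ‖x' + y‖ ‖x' - y‖ ≤ max ‖x + y‖ ‖x - y‖ + ‖x - x'‖ :=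
    max_le (by linarith) (by linarith)
  linarith

end

end Crest.Agent.R125
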