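import Mathlib
import Crest.Prelude.Def_TreePotentials

/-!
Row 125: the mixing construction for bounded tree potentials.
-/

set_option autoImplicit false

namespace Crest.Agent.R125

open Crest.AnalysisR.TreePotential

/-- the last ancestor (or the vertex itself) lying in `T` -/
noncomputable def exitV (T : List ℕ → Prop) : List ℕ → List ℕ
  | [] => []
  | a :: v => by classical exact if T (a :: v) then a :: v else exitV T v

theorem exitV_of_mem {T : List ℕ → Prop} {s : List ℕ} (h : T s) : exitV T s = s := by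
  cases s with
  | nil => rfl
  | cons a v => simp [exitV, h]

theorem exitV_of_not_mem {T : List ℕ → Prop} {a : ℕ} {v : List ℕ} (h : ¬ T (a :: v)) :
    exitV T (a :: v) = exitV T v := by
  simp [exitV, h]

theorem exitV_down {T D : List ℕ → Prop} (hD : ∀ a v, D (a :: v) → D v) :
    ∀ s, D s → D (exitV T s)
  | [], h => h
  | a :: v, h => by
    by_cases hT : T (a :: v)
    · rwa [exitV_of_mem hT]
    · rw [exitV_of_not_mem hT]
      exact exitV_down hD v (hD a v h)

/-- coefficients with a prescribed potential -/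
def coefOf (P : List ℕ → ℝ) : List ℕ → ℝ
  | [] => P []
  | a :: v => P (a :: v) - P v

theorem pathPotential_coefOf (P : List ℕ → ℝ) : ∀ s, pathPotential (coefOf P) s = P s
  | [] => rfl
  | a :: v => by
    simp only [pathPotential, coefOf, pathPotential_coefOf P v]
    ring

/-- the clamp used in the mixing construction -/
noncomputable def clampF (p u : ℝ) : ℝ := min (p + max u 0) (max 1 p - max (-u) 0)

theorem clampF_zero (p : ℝ) : clampF p 0 = p := by
  simp [clampF]

theorem clampF_sub (p u : ℝ) : clampF p u - clampF p (-u) = u := by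
  simp only [clampF, neg_neg, min_def, max_def]
  split_ifs <;> linarith

theorem clampF_lip (p u w : ℝ) : |clampF p u - clampF p w| ≤ |u - w| := by
  have h1 := le_abs_self (u - w)
  have h2 := neg_abs_le (u - w)
  rw [abs_le]
  simp only [clampF, min_def, max_def]
  split_ifs <;> constructor <;> linarith

theorem clampF_bound {p u : ℝ} (hp : |p| ≤ 1) (hu : |u| ≤ 2) : |clampF p u| ≤ 1 := by
  rw [abs_le] at *
  simp only [clampF, min_def, max_def]
  split_ifs <;> constructor <;> linarith

theorem exists_mix (T D : List ℕ → Prop) (hT0 : T []) (hT : ∀ a v, T (a :: v) → T v)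
    (hD : ∀ a v, D (a :: v) → D v) (f g : List ℕ → ℝ) {α β : ℝ} (hα : 0 ≤ α) (hα1 : α ≤ 1)
    (hβ : 0 ≤ β) (hβ1 : β ≤ 1) (hf : ∀ s, D s → |pathPotential f s| ≤ 1)
    (hg : ∀ s, D s → |pathPotential g s| ≤ 1) :
    ∃ h₁ h₂ : List ℕ → ℝ, (∀ s, D s → |pathPotential h₁ s| ≤ 1) ∧
      (∀ s, D s → |pathPotential h₂ s| ≤ 1) ∧
      (∀ s, T s → h₁ s = α * f s ∧ h₂ s = α * f s) ∧
      (∀ s, ¬ T s → h₁ s - h₂ s = β * g s) ∧
      (∀ s, h₁ s ^ 2 ≤ α ^ 2 * f s ^ 2 + β ^ 2 * g s ^ 2) ∧
      (∀ s, h₂ s ^ 2 ≤ α ^ 2 * f s ^ 2 + β ^ 2 * g s ^ 2) := by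
  let p : List ℕ → ℝ := fun s => α * pathPotential f (exitV T s)
  let u : List ℕ → ℝ := fun s => β * (pathPotential g s - pathPotential g (exitV T s))
  have hp : ∀ s, D s → |p s| ≤ 1 := fun s hs => by
    simp only [p, abs_mul, abs_of_nonneg hα]
    have := hf _ (exitV_down (T := T) hD s hs)
    nlinarith [abs_nonneg (pathPotential f (exitV T s))]
  have hu : ∀ s, D s → |u s| ≤ 2 := fun s hs => by
    simp only [u, abs_mul, abs_of_nonneg hβ]
    have h1 := hg _ (exitV_down (T := T) hD s hs)
    have h2 := hg _ hs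
    have h3 := abs_sub (pathPotential g s) (pathPotential g (exitV T s))
    nlinarith [abs_nonneg (pathPotential g s - pathPotential g (exitV T s))]
  have huT : ∀ s, T s → u s = 0 := fun s hs => by simp [u, exitV_of_mem hs]
  have hpT : ∀ s, T s → p s = α * pathPotential f s := fun s hs => by simp [p, exitV_of_mem hs]
  have hon : ∀ s, T s → coefOf (fun s => clampF (p s) (u s)) s = α * f s ∧
      coefOf (fun s => clampF (p s) (-u s)) s = α * f s := by
    intro s hs
    cases s with
    | nil => simp [coefOf, huT _ hs, hpT _ hs, clampF_zero, pathPotential]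
    | cons a v =>
      have hv := hT a v hs
      simp only [coefOf, huT _ hs, hpT _ hs, huT _ hv, hpT _ hv, clampF_zero, neg_zero,
        pathPotential]
      constructor <;> ring
  have hoff : ∀ a v, ¬ T (a :: v) → p (a :: v) = p v ∧ u (a :: v) - u v = β * g (a :: v) := by
    intro a v h
    simp only [p, u, exitV_of_not_mem h, pathPotential]
    constructor
    · trivial
    · ring
  have hsq : ∀ (s : List ℕ) (x : ℝ), |x| ≤ |β * g s| → x ^ 2 ≤ α ^ 2 * f s ^ 2 + β ^ 2 * g s ^ 2 := by
    intro s x hx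
    have h1 : x ^ 2 ≤ (β * g s) ^ 2 := sq_le_sq.2 hx
    nlinarith [mul_nonneg (sq_nonneg α) (sq_nonneg (f s))]
  refine ⟨coefOf (fun s => clampF (p s) (u s)), coefOf (fun s => clampF (p s) (-u s)),
    fun s hs => ?_, fun s hs => ?_, hon, ?_, ?_, ?_⟩
  · rw [pathPotential_coefOf]
    exact clampF_bound (hp s hs) (hu s hs)
  · rw [pathPotential_coefOf]
    exact clampF_bound (hp s hs) (by rw [abs_neg]; exact hu s hs)
  · intro s hs
    cases s with
    | nil => exact absurd hT0 hs
    | cons a v =>
      obtain ⟨h1, h2⟩ := hoff a v hs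
      have h3 := clampF_sub (p (a :: v)) (u (a :: v))
      have h4 := clampF_sub (p v) (u v)
      simp only [coefOf]
      linarith
  · intro s
    by_cases hs : T s
    · rw [(hon s hs).1]
      nlinarith [mul_nonneg (sq_nonneg β) (sq_nonneg (g s))]
    · cases s with
      | nil => exact absurd hT0 hs
      | cons a v =>
        obtain ⟨h1, h2⟩ := hoff a v hs
        apply hsq
        simp only [coefOf, h1]
        rw [← h2]
        exact clampF_lip _ _ _
  · intro s
    by_cases hs : T s
    · rw [(hon s hs).2]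
      nlinarith [mul_nonneg (sq_nonneg β) (sq_nonneg (g s))]
    · cases s with
      | nil => exact absurd hT0 hs
      | cons a v =>
        obtain ⟨h1, h2⟩ := hoff a v hs
        apply hsq
        simp only [coefOf, h1]
        rw [← h2]
        refine (clampF_lip _ _ _).trans (le_of_eq ?_)
        rw [← abs_neg]
        congr 1
        ring

/-- every finite set of vertices lies in a finite ancestor-closed set containing the root -/
theorem exists_closed_superset (A : Finset (List ℕ)) :
    ∃ T : Finset (List ℕ), A ⊆ T ∧ [] ∈ T ∧ ∀ a v, a :: v ∈ T → v ∈ T := by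
  classical
  refine ⟨insert [] (A.biUnion fun s => s.tails.toFinset), ?_, by simp, ?_⟩
  · intro s hs
    simp only [Finset.mem_insert, Finset.mem_biUnion, List.mem_toFinset, List.mem_tails]
    exact Or.inr ⟨s, hs, List.suffix_refl s⟩
  · intro a v h
    simp only [Finset.mem_insert, Finset.mem_biUnion, List.mem_toFinset, List.mem_tails] at h ⊢
    rcases h with h | ⟨s, hs, h⟩
    · simp at h
    · exact Or.inr ⟨s, hs, (List.suffix_cons a v).trans h⟩

/-- the optimal weights -/
theorem exists_weights (a b : ℝ) (ha : 0 ≤ a) (hb : 0 ≤ b) :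
    ∃ α β : ℝ, 0 ≤ α ∧ 0 ≤ β ∧ α ≤ 1 ∧ β ≤ 1 ∧ α ^ 2 + β ^ 2 ≤ 1 ∧
      α * a + β * b = Real.sqrt (a ^ 2 + b ^ 2) := by
  by_cases h : a ^ 2 + b ^ 2 = 0
  · refine ⟨0, 0, le_rfl, le_rfl, zero_le_one, zero_le_one, by norm_num, by simp [h]⟩
  · have hpos : 0 < a ^ 2 + b ^ 2 := lt_of_le_of_ne (by positivity) (Ne.symm h)
    set r := Real.sqrt (a ^ 2 + b ^ 2) with hr
    have hrpos : 0 < r := Real.sqrt_pos.2 hpos
    have hr2 : r ^ 2 = a ^ 2 + b ^ 2 := Real.sq_sqrt hpos.le
    refine ⟨a / r, b / r, by positivity, by positivity, ?_, ?_, ?_, ?_⟩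
    · rw [div_le_one hrpos]
      nlinarith [sq_nonneg b]
    · rw [div_le_one hrpos]
      nlinarith [sq_nonneg a]
    · rw [div_pow, div_pow, ← add_div, hr2, div_self h]
    · field_simp
      linarith

end Crest.Agent.R125
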