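import Crest.Agent.R125.Tests

/-!
Row 125: facts on the tests of the four tree-potential models.
-/

set_option autoImplicit false

namespace Crest.Agent.R125

open Filter Topology Submodule Crest.AnalysisR.TreePotential

theorem pathPotential_neg (f : List ℕ → ℝ) : ∀ s, pathPotential (-f) s = - pathPotential f s
  | [] => rfl
  | a :: v => by
    simp only [pathPotential, pathPotential_neg f v, Pi.neg_apply]
    ring

theorem pathPotential_zero : ∀ s, pathPotential 0 s = 0
  | [] => rfl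
  | a :: v => by simp [pathPotential, pathPotential_zero v]

theorem pathPotential_single (w : List ℕ) :
    ∀ s, pathPotential (Pi.single w 1) s = if w <:+ s then 1 else 0
  | [] => by
    by_cases h : w = []
    · subst h; simp [pathPotential]
    · simp [pathPotential, h]
  | a :: v => by
    simp only [pathPotential, pathPotential_single w v]
    by_cases h : w = a :: v
    · subst h
      have : ¬ (a :: v) <:+ v := fun h => by
        have := h.length_le
        simp at this
      simp [this]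
    · rw [Pi.single_eq_of_ne' h]
      simp [List.suffix_cons_iff, h]

theorem abs_pathPotential_single_le (w s : List ℕ) : |pathPotential (Pi.single w 1) s| ≤ 1 := by
  rw [pathPotential_single]
  split_ifs <;> simp

theorem sum_single_sq_le (w : List ℕ) (B : Finset (List ℕ)) :
    ∑ u ∈ B, (Pi.single w (1 : ℝ) : List ℕ → ℝ) u ^ 2 ≤ 1 := by
  classical
  have : ∀ u ∈ B, (Pi.single w (1 : ℝ) : List ℕ → ℝ) u ^ 2 = if u = w then 1 else 0 := by
    intro u _
    by_cases h : u = w
    · subst h; simp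
    · simp [h]
  rw [Finset.sum_congr rfl this, Finset.sum_ite_eq']
  split_ifs <;> simp

theorem sum_cons_eq (F : List ℕ → ℝ) (r : List ℕ) (A : Finset ℕ) :
    ∑ n ∈ A, F (n :: r) = ∑ u ∈ A.image (fun n => n :: r), F u := by
  rw [Finset.sum_image]
  intro a _ b _ h
  simpa using h

theorem siblings_le {m : PotentialModel} {f : List ℕ → ℝ} (hf : ExtraCondition m f) (r : List ℕ)
    (A : Finset ℕ) : ∑ n ∈ A, f (n :: r) ^ 2 ≤ 1 := by
  cases m with
  | rootlessSibling => exact hf.2 r A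
  | rootedSibling => exact hf r A
  | antichain =>
    rw [sum_cons_eq (fun u => f u ^ 2)]
    refine hf.2 _ ?_
    intro u hu v hv huv hs
    obtain ⟨a, -, rfl⟩ := Finset.mem_image.1 hu
    obtain ⟨b, -, rfl⟩ := Finset.mem_image.1 hv
    exact huv (hs.eq_of_length (by simp))
  | global =>
    rw [sum_cons_eq (fun u => f u ^ 2)]
    exact hf _

theorem sum_dom {κ : Type} (A : Finset κ) (f g h : κ → ℝ) {α β : ℝ} (hαβ : α ^ 2 + β ^ 2 ≤ 1)
    (hf : ∑ n ∈ A, f n ^ 2 ≤ 1) (hg : ∑ n ∈ A, g n ^ 2 ≤ 1)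
    (hh : ∀ s, h s ^ 2 ≤ α ^ 2 * f s ^ 2 + β ^ 2 * g s ^ 2) : ∑ n ∈ A, h n ^ 2 ≤ 1 := by
  calc ∑ n ∈ A, h n ^ 2 ≤ ∑ n ∈ A, (α ^ 2 * f n ^ 2 + β ^ 2 * g n ^ 2) :=
        Finset.sum_le_sum fun n _ => hh n
    _ = α ^ 2 * ∑ n ∈ A, f n ^ 2 + β ^ 2 * ∑ n ∈ A, g n ^ 2 := by
        rw [Finset.sum_add_distrib, Finset.mul_sum, Finset.mul_sum]
    _ ≤ α ^ 2 * 1 + β ^ 2 * 1 := by gcongr
    _ ≤ 1 := by linarith

theorem extra_of_dom {m : PotentialModel} {f g h : List ℕ → ℝ} {α β : ℝ}
    (hαβ : α ^ 2 + β ^ 2 ≤ 1) (hf : ExtraCondition m f) (hg : ExtraCondition m g)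
    (hh : ∀ s, h s ^ 2 ≤ α ^ 2 * f s ^ 2 + β ^ 2 * g s ^ 2) : ExtraCondition m h := by
  have hz : ∀ s, f s = 0 → g s = 0 → h s = 0 := fun s h1 h2 => by
    have := hh s
    rw [h1, h2] at this
    nlinarith [sq_nonneg (h s)]
  cases m with
  | rootlessSibling =>
    exact ⟨hz _ hf.1 hg.1, fun r A => sum_dom A (fun n => f (n :: r)) (fun n => g (n :: r))
      (fun n => h (n :: r)) hαβ (hf.2 r A) (hg.2 r A) (fun n => hh _)⟩
  | rootedSibling =>
    exact fun r A => sum_dom A (fun n => f (n :: r)) (fun n => g (n :: r))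
      (fun n => h (n :: r)) hαβ (hf r A) (hg r A) (fun n => hh _)
  | antichain =>
    refine ⟨(hf.1.union hg.1).subset ?_, fun A hA => sum_dom A f g h hαβ (hf.2 A hA) (hg.2 A hA) hh⟩
    intro s hs
    by_contra hn
    simp only [Set.mem_union, Function.mem_support, not_or, not_not] at hn
    exact hs (hz s hn.1 hn.2)
  | global => exact fun A => sum_dom A f g h hαβ (hf A) (hg A) hh

theorem isTest_single (m : PotentialModel) (a : ℕ) (v : List ℕ) :
    IsTest m (Pi.single (a :: v) 1) := by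
  refine ⟨abs_pathPotential_single_le _, ?_⟩
  have hs : ∀ (r : List ℕ) (A : Finset ℕ),
      ∑ n ∈ A, (Pi.single (a :: v) (1 : ℝ) : List ℕ → ℝ) (n :: r) ^ 2 ≤ 1 := fun r A => by
    rw [sum_cons_eq (fun u => (Pi.single (a :: v) (1 : ℝ) : List ℕ → ℝ) u ^ 2)]
    exact sum_single_sq_le _ _
  cases m with
  | rootlessSibling => exact ⟨by simp, hs⟩
  | rootedSibling => exact hs
  | antichain =>
    exact ⟨(Set.finite_singleton _).subset Pi.support_single_subset,
      fun A _ => sum_single_sq_le _ _⟩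
  | global => exact fun A => sum_single_sq_le _ _

theorem isTest_neg {m : PotentialModel} {f : List ℕ → ℝ} (hf : IsTest m f) : IsTest m (-f) :=
  ⟨fun s => by rw [pathPotential_neg, abs_neg]; exact hf.1 s,
    extra_of_dom (α := 1) (β := 0) (by norm_num) hf.2 hf.2 (fun s => by simp)⟩

/-- path sums of the coordinate vectors -/
noncomputable def pathSum {X : Type} [AddCommGroup X] (e : List ℕ → X) : List ℕ → X
  | [] => e []
  | a :: v => pathSum e v + e (a :: v)

theorem map_pathSum {X : Type} [NormedAddCommGroup X] [NormedSpace ℝ X] (e : List ℕ → X)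
    (φ : X →L[ℝ] ℝ) (f : List ℕ → ℝ) (h : ∀ s, φ (e s) = f s) :
    ∀ s, φ (pathSum e s) = pathPotential f s
  | [] => h []
  | a :: v => by simp [pathSum, pathPotential, map_pathSum e φ f h v, h]

theorem signed_sum_le (A : Finset ℕ) (c f : ℕ → ℝ) (hc : ∀ n, c n = 1 ∨ c n = -1)
    (hf : ∑ n ∈ A, f n ^ 2 ≤ 1) : |∑ n ∈ A, c n * f n| ≤ Real.sqrt A.card := by
  apply Real.abs_le_sqrt
  refine (Finset.sum_mul_sq_le_sq_mul_sq A c f).trans ?_
  have : ∑ n ∈ A, c n ^ 2 = A.card := by
    rw [Finset.sum_congr rfl (g := fun _ => (1 : ℝ))]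
    · simp
    · intro n _
      rcases hc n with h | h <;> simp [h]
  rw [this]
  exact mul_le_of_le_one_right (Nat.cast_nonneg _) hf

end Crest.Agent.R125
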