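import Mathlib
import Crest.Prelude.Def_TreeProducts
import Crest.Agent.R125.Basic

/-!
Row 125, statement S0169: probabilistic estimates for path products along the tree.
-/

set_option autoImplicit false

namespace Crest.Agent.R125

open MeasureTheory ProbabilityTheory Crest.AnalysisR.TreeProduct

variable {Ω : Type} [MeasurableSpace Ω]

/-- the non-root vertices on the root path of a vertex -/
def prSuff : List ℕ → Finset (List ℕ)
  | [] => ∅
  | a :: v => insert (a :: v) (prSuff v)

theorem prSuff_length : ∀ (v : List ℕ) (u : List ℕ), u ∈ prSuff v → u.length ≤ v.length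
  | [], u, h => by simp [prSuff] at h
  | a :: v, u, h => by
    simp only [prSuff, Finset.mem_insert] at h
    rcases h with rfl | h
    · exact le_rfl
    · have := prSuff_length v u h
      simp only [List.length_cons]
      omega

omit [MeasurableSpace Ω] in
theorem pathProduct_eq (W : List ℕ → Ω → ℝ) :
    ∀ (v : List ℕ) (z : Ω), pathProduct W v z = ∏ u ∈ prSuff v, W u z
  | [], z => by simp [pathProduct, prSuff]
  | a :: v, z => by
    have hn : (a :: v) ∉ prSuff v := fun h => by
      have := prSuff_length v _ h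
      simp at this
    simp only [pathProduct, prSuff]
    rw [Finset.prod_insert hn, pathProduct_eq W v z, mul_comm]

theorem measurable_pathProduct {W : List ℕ → Ω → ℝ} (hW : ∀ v, Measurable (W v)) :
    ∀ v : List ℕ, Measurable (pathProduct W v)
  | [] => measurable_const
  | a :: v => (measurable_pathProduct hW v).mul (hW (a :: v))

/-- signed sum of centred child multipliers -/
noncomputable def prZ (W : List ℕ → Ω → ℝ) (v : List ℕ) (A : Finset ℕ) (c : ℕ → ℝ) : Ω → ℝ :=
  fun z => ∑ a ∈ A, c a * (W (a :: v) z - 1)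

theorem measurable_prZ {W : List ℕ → Ω → ℝ} (hW : ∀ v, Measurable (W v)) (v : List ℕ)
    (A : Finset ℕ) (c : ℕ → ℝ) : Measurable (prZ W v A c) := by
  unfold prZ
  refine Finset.measurable_sum _ fun a _ => ?_
  exact ((hW _).sub measurable_const).const_mul _

theorem indep_pathProduct_prZ {μ : Measure Ω} {W : List ℕ → Ω → ℝ} (hW : ∀ v, Measurable (W v))
    (hind : iIndepFun W μ) (v : List ℕ) (A : Finset ℕ) (c : ℕ → ℝ) :
    IndepFun (pathProduct W v) (prZ W v A c) μ := by
  classical
  have hdisj : Disjoint (prSuff v) (A.image (fun a => a :: v)) := by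
    rw [Finset.disjoint_left]
    intro u hu hu'
    obtain ⟨a, -, rfl⟩ := Finset.mem_image.1 hu'
    have := prSuff_length v _ hu
    simp at this
  have h := hind.indepFun_finset _ _ hdisj hW
  let f : (prSuff v → ℝ) → ℝ := fun x => ∏ u, x u
  let g : (A.image (fun a => a :: v) → ℝ) → ℝ := fun x =>
    ∑ a : A, c a * (x ⟨a.1 :: v, Finset.mem_image_of_mem _ a.2⟩ - 1)
  have hf : Measurable f := by
    unfold f
    fun_prop
  have hg : Measurable g := by
    unfold g
    fun_prop
  have h2 := h.comp hf hg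
  convert h2 using 1
  · ext z
    simp only [Function.comp, f]
    rw [pathProduct_eq, Finset.prod_coe_sort (prSuff v) (fun u => W u z)]
  · ext z
    simp only [Function.comp, g, prZ]
    rw [Finset.sum_coe_sort A (fun a => c a * (W (a :: v) z - 1))]

theorem indep_pathProduct_child {μ : Measure Ω} {W : List ℕ → Ω → ℝ}
    (hW : ∀ v, Measurable (W v)) (hind : iIndepFun W μ) (v : List ℕ) (a : ℕ) :
    IndepFun (pathProduct W v) (W (a :: v)) μ := by
  have h := (indep_pathProduct_prZ hW hind v {a} (fun _ => 1)).comp measurable_id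
    (show Measurable (fun x : ℝ => x + 1) by fun_prop)
  have e : W (a :: v) = (fun x : ℝ => x + 1) ∘ prZ W v {a} fun _ => 1 := by
    ext z
    simp [prZ]
  rw [e]
  exact h

section Law

variable {ν : Measure ℝ} [IsProbabilityMeasure ν] {μ : Measure Ω} [IsProbabilityMeasure μ]
  {W : List ℕ → Ω → ℝ}

omit [IsProbabilityMeasure ν] [IsProbabilityMeasure μ] in
theorem memLp_W (hm2 : Integrable (fun x : ℝ => x ^ 2) ν) (hW : IsRealization ν μ W)
    (a : ℕ) (v : List ℕ) : MemLp (W (a :: v)) 2 μ := by
  have h1 : MemLp (fun x : ℝ => x) 2 ν :=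
    (memLp_two_iff_integrable_sq (by fun_prop)).2 hm2
  rw [← hW.2.2 (a :: v) (by simp)] at h1
  exact (memLp_map_measure_iff (by fun_prop) (hW.1 _).aemeasurable).1 h1

omit [IsProbabilityMeasure ν] [IsProbabilityMeasure μ] in
theorem integral_comp_W (hW : IsRealization ν μ W) (a : ℕ) (v : List ℕ) (g : ℝ → ℝ)
    (hg : Measurable g) : ∫ z, g (W (a :: v) z) ∂μ = ∫ x, g x ∂ν := by
  rw [← hW.2.2 (a :: v) (by simp), integral_map (hW.1 _).aemeasurable hg.aestronglyMeasurable]

theorem integral_abs_law (hpos : ν (Set.Ioi 0) = 1) (hmean : ∫ x, x ∂ν = 1) :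
    ∫ x, |x| ∂ν = 1 := by
  rw [← hmean]
  refine integral_congr_ae ?_
  have : ∀ᵐ x ∂ν, x ∈ Set.Ioi (0 : ℝ) :=
    (mem_ae_iff_prob_eq_one measurableSet_Ioi).2 hpos
  filter_upwards [this] with x hx
  exact abs_of_pos hx

omit [IsProbabilityMeasure ν] in
theorem integrable_pathProduct (hm2 : Integrable (fun x : ℝ => x ^ 2) ν)
    (hW : IsRealization ν μ W) : ∀ v : List ℕ, Integrable (pathProduct W v) μ
  | [] => integrable_const _
  | a :: v => (indep_pathProduct_child hW.1 hW.2.1 v a).integrable_mul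
      (integrable_pathProduct hm2 hW v) ((memLp_W hm2 hW a v).integrable one_le_two)

omit [IsProbabilityMeasure ν] [IsProbabilityMeasure μ] in
theorem integral_abs_mul_of_indep {X Y : Ω → ℝ} (hX : Measurable X) (hY : Measurable Y)
    (h : IndepFun X Y μ) :
    ∫ z, |X z * Y z| ∂μ = (∫ z, |X z| ∂μ) * ∫ z, |Y z| ∂μ := by
  simp_rw [abs_mul]
  exact h.integral_fun_comp_mul_comp (f := fun x : ℝ => |x|) (g := fun x : ℝ => |x|)
    hX.aemeasurable hY.aemeasurable (by fun_prop) (by fun_prop)

theorem integral_abs_pathProduct (hpos : ν (Set.Ioi 0) = 1) (hmean : ∫ x, x ∂ν = 1)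
    (hW : IsRealization ν μ W) : ∀ v : List ℕ, ∫ z, |pathProduct W v z| ∂μ = 1
  | [] => by simp [pathProduct]
  | a :: v => by
    simp only [pathProduct]
    rw [integral_abs_mul_of_indep (measurable_pathProduct hW.1 v) (hW.1 _)
      (indep_pathProduct_child hW.1 hW.2.1 v a), integral_abs_pathProduct hpos hmean hW v,
      integral_comp_W hW a v (fun x => |x|) (by fun_prop), integral_abs_law hpos hmean, one_mul]

theorem integral_abs_mul_prZ (hpos : ν (Set.Ioi 0) = 1) (hmean : ∫ x, x ∂ν = 1)
    (hW : IsRealization ν μ W) (v : List ℕ) (A : Finset ℕ) (c : ℕ → ℝ) :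
    ∫ z, |pathProduct W v z * prZ W v A c z| ∂μ = ∫ z, |prZ W v A c z| ∂μ := by
  rw [integral_abs_mul_of_indep (measurable_pathProduct hW.1 v) (measurable_prZ hW.1 v A c)
    (indep_pathProduct_prZ hW.1 hW.2.1 v A c), integral_abs_pathProduct hpos hmean hW v, one_mul]

theorem sq_integral_abs_prZ_le (hmean : ∫ x, x ∂ν = 1)
    (hm2 : Integrable (fun x : ℝ => x ^ 2) ν)
    (hW : IsRealization ν μ W) (v : List ℕ) (A : Finset ℕ) (c : ℕ → ℝ)
    (hc : ∀ n, c n = 1 ∨ c n = -1) :
    (∫ z, |prZ W v A c z| ∂μ) ^ 2 ≤ (∫ x, x ^ 2 ∂ν) * A.card := by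
  have hL : ∀ a, MemLp (fun z => c a * (W (a :: v) z - 1)) 2 μ := fun a =>
    ((memLp_W hm2 hW a v).sub (memLp_const 1)).const_mul _
  have hZ : prZ W v A c = ∑ a ∈ A, fun z => c a * (W (a :: v) z - 1) := by
    ext z
    simp [prZ]
  have hZL : MemLp (prZ W v A c) 2 μ := by
    rw [hZ]
    exact memLp_finsetSum' _ fun a _ => hL a
  have hmeanW : ∀ a, ∫ z, W (a :: v) z ∂μ = 1 := fun a => by
    rw [integral_comp_W hW a v (fun x => x) measurable_id, hmean]
  have hZ0 : ∫ z, prZ W v A c z ∂μ = 0 := by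
    unfold prZ
    rw [integral_finsetSum _ fun a _ => (hL a).integrable one_le_two]
    refine Finset.sum_eq_zero fun a _ => ?_
    rw [integral_const_mul, integral_sub ((memLp_W hm2 hW a v).integrable one_le_two)
      (integrable_const _), hmeanW]
    simp
  have hvar : variance (prZ W v A c) μ ≤ (∫ x, x ^ 2 ∂ν) * A.card := by
    rw [hZ, IndepFun.variance_sum (fun a _ => hL a)]
    · rw [mul_comm, ← nsmul_eq_mul, ← Finset.sum_const]
      refine Finset.sum_le_sum fun a _ => ?_
      rw [variance_const_mul, variance_sub_const (hW.1 _).aestronglyMeasurable]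
      have h1 : c a ^ 2 = 1 := by rcases hc a with h | h <;> simp [h]
      rw [h1, one_mul, ← integral_comp_W hW a v (fun x => x ^ 2) (by fun_prop)]
      exact variance_le_expectation_sq (hW.1 _).aestronglyMeasurable
    · intro a _ b _ hab
      have h := hW.2.1.indepFun (i := a :: v) (j := b :: v) (by simpa using hab)
      exact h.comp (φ := fun x : ℝ => c a * (x - 1)) (ψ := fun x : ℝ => c b * (x - 1))
        (by fun_prop) (by fun_prop)
  refine le_trans ?_ hvar
  rw [variance_of_integral_eq_zero hZL.aemeasurable hZ0]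
  have h1 := variance_nonneg |prZ W v A c| μ
  rw [variance_eq_sub hZL.abs] at h1
  simp only [Pi.pow_apply, Pi.abs_apply, sq_abs] at h1
  linarith

theorem delta_pos (hnc : ∀ c : ℝ, ν ≠ Measure.dirac c)
    (hm2 : Integrable (fun x : ℝ => x ^ 2) ν) : 0 < ∫ x, |x - 1| ∂ν := by
  have h1 : MemLp (fun x : ℝ => x) 2 ν :=
    (memLp_two_iff_integrable_sq (by fun_prop)).2 hm2
  have h2 : Integrable (fun x : ℝ => |x - 1|) ν :=
    ((h1.integrable one_le_two).sub (integrable_const 1)).abs
  rcases (integral_nonneg (μ := ν) (f := fun x : ℝ => |x - 1|)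
    (fun x => abs_nonneg _)).lt_or_eq with h | h
  · exact h
  · exfalso
    have h3 := (integral_eq_zero_iff_of_nonneg (fun x => abs_nonneg _) h2).1 h.symm
    apply hnc 1
    have h4 : (fun x : ℝ => x) =ᵐ[ν] fun _ => (1 : ℝ) := by
      filter_upwards [h3] with x hx
      have : |x - 1| = 0 := hx
      have := abs_eq_zero.1 this
      linarith
    have h5 : Measure.map (fun x : ℝ => x) ν = Measure.map (fun _ : ℝ => (1 : ℝ)) ν :=
      Measure.map_congr h4
    rw [Measure.map_id', Measure.map_const] at h5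
    simpa using h5

end Law

end Crest.Agent.R125
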