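import Mathlib

/-!
Row 125: reflexivity of Hilbert spaces, transfer along isomorphisms, and `ℓ²`-sums.
-/

set_option autoImplicit false

namespace Crest.Agent.R125

open scoped ENNReal

theorem refl_hilbert (H : Type) [NormedAddCommGroup H] [InnerProductSpace ℝ H] [CompleteSpace H] :
    Function.Surjective (NormedSpace.inclusionInDoubleDual ℝ H) := by
  intro Φ
  let T : H →L[ℝ] StrongDual ℝ H :=
    (InnerProductSpace.toDual ℝ H).toContinuousLinearEquiv.toContinuousLinearMap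
  refine ⟨(InnerProductSpace.toDual ℝ H).symm (Φ.comp T), ?_⟩
  ext φ
  obtain ⟨y, rfl⟩ := (InnerProductSpace.toDual ℝ H).surjective φ
  rw [NormedSpace.dual_def, InnerProductSpace.toDual_apply_apply, real_inner_comm,
    InnerProductSpace.toDual_symm_apply]
  rfl

theorem refl_of_equiv {X Y : Type} [NormedAddCommGroup X] [NormedSpace ℝ X]
    [NormedAddCommGroup Y] [NormedSpace ℝ Y] (e : X ≃L[ℝ] Y)
    (h : Function.Surjective (NormedSpace.inclusionInDoubleDual ℝ X)) :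
    Function.Surjective (NormedSpace.inclusionInDoubleDual ℝ Y) := by
  intro Φ
  let T : StrongDual ℝ X →L[ℝ] StrongDual ℝ Y :=
    (ContinuousLinearMap.compL ℝ Y X ℝ).flip (e.symm : Y →L[ℝ] X)
  obtain ⟨x, hx⟩ := h (Φ.comp T)
  refine ⟨e x, ?_⟩
  ext ψ
  have h1 := congrArg (fun F => F (ψ.comp (e : X →L[ℝ] Y))) hx
  simp only [NormedSpace.dual_def, ContinuousLinearMap.comp_apply,
    ContinuousLinearEquiv.coe_coe] at h1
  rw [NormedSpace.dual_def, h1]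
  congr 1
  ext y
  simp [T]

section Lp

variable {E : ℕ → Type} [∀ k, NormedAddCommGroup (E k)] [∀ k, NormedSpace ℝ (E k)]

omit [∀ k, NormedSpace ℝ (E k)] in
theorem rf_sum_sq_le (f : lp E 2) (s : Finset ℕ) : ∑ i ∈ s, ‖f i‖ ^ 2 ≤ ‖f‖ ^ 2 := by
  have := lp.sum_rpow_le_norm_rpow (p := 2) (by norm_num) f s
  simpa using this

omit [∀ k, NormedSpace ℝ (E k)] in
theorem rf_norm_sum_single (g : ∀ i, E i) (s : Finset ℕ) :
    ‖∑ i ∈ s, lp.single 2 i (g i)‖ ^ 2 = ∑ i ∈ s, ‖g i‖ ^ 2 := by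
  have := lp.norm_sum_single (p := 2) (by norm_num) g s
  simpa using this

theorem rf_norm_sum_comp_le (φ : ∀ k, StrongDual ℝ (E k)) (s : Finset ℕ) :
    ‖∑ k ∈ s, (φ k).comp (lp.evalCLM ℝ E 2 k)‖ ≤ Real.sqrt (∑ k ∈ s, ‖φ k‖ ^ 2) := by
  refine ContinuousLinearMap.opNorm_le_bound _ (Real.sqrt_nonneg _) fun f => ?_
  rw [sum_apply]
  have h1 : ‖∑ k ∈ s, ((φ k).comp (lp.evalCLM ℝ E 2 k)) f‖ ≤ ∑ k ∈ s, ‖φ k‖ * ‖f k‖ :=
    (norm_sum_le _ _).trans (Finset.sum_le_sum fun k _ => (φ k).le_opNorm (f k))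
  refine h1.trans ((Real.sum_mul_le_sqrt_mul_sqrt s _ _).trans ?_)
  refine mul_le_mul_of_nonneg_left ?_ (Real.sqrt_nonneg _)
  exact Real.sqrt_le_iff.2 ⟨norm_nonneg _, rf_sum_sq_le f s⟩

theorem rf_le_sq_of_le_mul_sqrt {S C : ℝ} (hS : 0 ≤ S) (h : S ≤ C * Real.sqrt S) : S ≤ C ^ 2 := by
  have h1 := Real.sq_sqrt hS
  nlinarith [sq_nonneg (C - Real.sqrt S), Real.sqrt_nonneg S]

theorem rf_sum_dual_le
    (h : ∀ k, Function.Surjective (NormedSpace.inclusionInDoubleDual ℝ (E k)))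
    (ψ : StrongDual ℝ (lp E 2)) (s : Finset ℕ) :
    ∑ k ∈ s, ‖ψ.comp (lp.singleContinuousLinearMap ℝ E 2 k)‖ ^ 2 ≤ ‖ψ‖ ^ 2 := by
  set ψ' : ∀ k, StrongDual ℝ (E k) := fun k => ψ.comp (lp.singleContinuousLinearMap ℝ E 2 k)
    with hψ'
  have hu : ∀ k, ∃ u : E k, ‖u‖ ≤ 1 ∧ ψ' k u = ‖ψ' k‖ := by
    intro k
    obtain ⟨G, hG1, hG2⟩ := exists_dual_vector'' ℝ (ψ' k)
    obtain ⟨u, rfl⟩ := h k G
    refine ⟨u, ?_, hG2⟩
    rw [← (NormedSpace.inclusionInDoubleDualLi ℝ (E := E k)).norm_map u]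
    exact hG1
  choose u hu1 hu2 using hu
  have hS : 0 ≤ ∑ k ∈ s, ‖ψ' k‖ ^ 2 := Finset.sum_nonneg fun _ _ => sq_nonneg _
  refine rf_le_sq_of_le_mul_sqrt hS ?_
  have h1 : ψ (∑ k ∈ s, lp.single 2 k (‖ψ' k‖ • u k)) = ∑ k ∈ s, ‖ψ' k‖ ^ 2 := by
    rw [map_sum]
    refine Finset.sum_congr rfl fun k _ => ?_
    change ψ' k (‖ψ' k‖ • u k) = _
    rw [map_smul, hu2, smul_eq_mul, sq]
  have h2 : ‖∑ k ∈ s, lp.single 2 k (‖ψ' k‖ • u k)‖ ≤ Real.sqrt (∑ k ∈ s, ‖ψ' k‖ ^ 2) := by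
    refine Real.le_sqrt_of_sq_le ?_
    rw [rf_norm_sum_single]
    refine Finset.sum_le_sum fun k _ => ?_
    rw [norm_smul, norm_norm]
    exact pow_le_pow_left₀ (by positivity)
      (mul_le_of_le_one_right (norm_nonneg _) (hu1 k)) 2
  calc ∑ k ∈ s, ‖ψ' k‖ ^ 2 = ψ (∑ k ∈ s, lp.single 2 k (‖ψ' k‖ • u k)) := h1.symm
    _ ≤ ‖ψ‖ * ‖∑ k ∈ s, lp.single 2 k (‖ψ' k‖ • u k)‖ := (le_abs_self _).trans (ψ.le_opNorm _)
    _ ≤ _ := mul_le_mul_of_nonneg_left h2 (norm_nonneg _)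

theorem rf_hasSum_apply (ψ : StrongDual ℝ (lp E 2)) (f : lp E 2) :
    HasSum (fun k => ψ (lp.single 2 k (f k))) (ψ f) :=
  (lp.hasSum_single (p := 2) (by norm_num) f).mapL ψ

theorem rf_hasSum_dual
    (h : ∀ k, Function.Surjective (NormedSpace.inclusionInDoubleDual ℝ (E k)))
    (ψ : StrongDual ℝ (lp E 2)) :
    HasSum (fun k => (ψ.comp (lp.singleContinuousLinearMap ℝ E 2 k)).comp (lp.evalCLM ℝ E 2 k))
      ψ := by
  have hs : Summable fun k => ‖ψ.comp (lp.singleContinuousLinearMap ℝ E 2 k)‖ ^ 2 :=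
    summable_of_sum_le (fun _ => sq_nonneg _) (rf_sum_dual_le h ψ)
  have hs2 : Summable fun k =>
      (ψ.comp (lp.singleContinuousLinearMap ℝ E 2 k)).comp (lp.evalCLM ℝ E 2 k) := by
    rw [summable_iff_vanishing_norm] at hs ⊢
    intro ε hε
    obtain ⟨s, hs⟩ := hs (ε ^ 2) (by positivity)
    refine ⟨s, fun t ht => ?_⟩
    refine (rf_norm_sum_comp_le _ t).trans_lt ?_
    rw [Real.sqrt_lt' hε]
    exact (le_abs_self _).trans_lt (hs t ht)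
  have h1 := hs2.hasSum
  convert h1 using 1
  ext f
  have h2 := h1.mapL (ContinuousLinearMap.apply ℝ ℝ f)
  exact (rf_hasSum_apply ψ f).unique h2

theorem refl_lp_two (E : ℕ → Type) [∀ k, NormedAddCommGroup (E k)] [∀ k, NormedSpace ℝ (E k)]
    [∀ k, CompleteSpace (E k)]
    (h : ∀ k, Function.Surjective (NormedSpace.inclusionInDoubleDual ℝ (E k))) :
    Function.Surjective (NormedSpace.inclusionInDoubleDual ℝ (lp E 2)) := by
  intro Φ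
  have hx : ∀ k, ∃ x : E k, ∀ φ : StrongDual ℝ (E k), φ x = Φ (φ.comp (lp.evalCLM ℝ E 2 k)) := by
    intro k
    let T : StrongDual ℝ (E k) →L[ℝ] StrongDual ℝ (lp E 2) :=
      (ContinuousLinearMap.compL ℝ (lp E 2) (E k) ℝ).flip (lp.evalCLM ℝ E 2 k)
    obtain ⟨x, hx⟩ := h k (Φ.comp T)
    exact ⟨x, fun φ => congrArg (fun F => F φ) hx⟩
  choose x hx using hx
  have hmem : Memℓp x 2 := by
    refine memℓp_gen' (C := ‖Φ‖ ^ 2) fun s => ?_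
    have hS : 0 ≤ ∑ k ∈ s, ‖x k‖ ^ 2 := Finset.sum_nonneg fun _ _ => sq_nonneg _
    suffices hh : ∑ k ∈ s, ‖x k‖ ^ 2 ≤ ‖Φ‖ ^ 2 by simpa using hh
    refine rf_le_sq_of_le_mul_sqrt hS ?_
    have hφ : ∀ k, ∃ φ : StrongDual ℝ (E k), ‖φ‖ ≤ 1 ∧ φ (x k) = ‖x k‖ :=
      fun k => exists_dual_vector'' ℝ (x k)
    choose φ hφ1 hφ2 using hφ
    have h1 : Φ (∑ k ∈ s, (‖x k‖ • φ k).comp (lp.evalCLM ℝ E 2 k)) = ∑ k ∈ s, ‖x k‖ ^ 2 := by
      rw [map_sum]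
      refine Finset.sum_congr rfl fun k _ => ?_
      rw [← hx, smul_apply, hφ2, smul_eq_mul, sq]
    have h2 : ‖∑ k ∈ s, (‖x k‖ • φ k).comp (lp.evalCLM ℝ E 2 k)‖ ≤
        Real.sqrt (∑ k ∈ s, ‖x k‖ ^ 2) := by
      refine (rf_norm_sum_comp_le _ s).trans (Real.sqrt_le_sqrt ?_)
      refine Finset.sum_le_sum fun k _ => ?_
      rw [norm_smul, norm_norm]
      exact pow_le_pow_left₀ (by positivity)
        (mul_le_of_le_one_right (norm_nonneg _) (hφ1 k)) 2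
    calc ∑ k ∈ s, ‖x k‖ ^ 2 = Φ (∑ k ∈ s, (‖x k‖ • φ k).comp (lp.evalCLM ℝ E 2 k)) := h1.symm
      _ ≤ ‖Φ‖ * ‖∑ k ∈ s, (‖x k‖ • φ k).comp (lp.evalCLM ℝ E 2 k)‖ :=
          (le_abs_self _).trans (Φ.le_opNorm _)
      _ ≤ _ := mul_le_mul_of_nonneg_left h2 (ContinuousLinearMap.opNorm_nonneg Φ)
  refine ⟨⟨x, hmem⟩, ?_⟩
  ext ψ
  rw [NormedSpace.dual_def]
  have h1 := (rf_hasSum_dual h ψ).mapL Φ
  have h2 := rf_hasSum_apply ψ ⟨x, hmem⟩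
  refine h2.unique ?_
  simp only [← hx] at h1
  exact h1

end Lp

end Crest.Agent.R125
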