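import Crest.Agent.R125.LpSum
import Crest.Agent.R125.Models

/-!
Row 125: the Hilbertian building blocks with potentials bounded up to depth `k`.
-/

set_option autoImplicit false

namespace Crest.Agent.R125

open Filter Topology Submodule Crest.AnalysisR.TreePotential
open scoped RealInnerProductSpace

/-- the Hilbert space on the tree -/
abbrev HT : Type := lp (fun _ : List ℕ => ℝ) 2

/-- tests of depth `k` -/
def TestK (k : ℕ) : Type :=
  {f : List ℕ → ℝ // ExtraCondition .global f ∧ ∀ s : List ℕ, s.length ≤ k →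
    |pathPotential f s| ≤ 1}

/-- a test as a vector of the Hilbert space -/
noncomputable def TestK.toH {k : ℕ} (f : TestK k) : HT :=
  ⟨f.1, memℓp_gen' (C := 1) fun A => by simpa using f.2.1 A⟩

theorem TestK.toH_apply {k : ℕ} (f : TestK k) (s : List ℕ) : f.toH s = f.1 s := rfl

theorem TestK.norm_toH {k : ℕ} (f : TestK k) : ‖f.toH‖ ≤ 1 :=
  lp.norm_le_of_forall_sum_le (by simp) zero_le_one fun A => by
    simpa [TestK.toH_apply] using f.2.1 A

theorem TestK.abs_inner_le {k : ℕ} (f : TestK k) (x : HT) : |⟪f.toH, x⟫| ≤ ‖x‖ :=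
  (abs_real_inner_le_norm _ _).trans (mul_le_of_le_one_left (norm_nonneg _) f.norm_toH)

/-- the embedding into bounded functions on the tests -/
noncomputable def JK (k : ℕ) : HT →L[ℝ] lp (fun _ : TestK k => ℝ) ⊤ :=
  LinearMap.mkContinuous
    { toFun := fun x => ⟨fun f => ⟪f.toH, x⟫, memℓp_infty ⟨‖x‖, by
        rintro _ ⟨f, rfl⟩
        exact f.abs_inner_le x⟩⟩
      map_add' := fun x y => by
        ext f
        exact inner_add_right _ _ _
      map_smul' := fun c x => by
        ext f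
        exact real_inner_smul_right _ _ _ } 1 (fun x => by
      rw [one_mul]
      exact lp.norm_le_of_forall_le (norm_nonneg _) fun f => f.abs_inner_le x)

theorem JK_apply (k : ℕ) (x : HT) (f : TestK k) : JK k x f = ⟪f.toH, x⟫ := rfl

theorem abs_pathPotential_le (f : List ℕ → ℝ) {c : ℝ} (h : ∀ u, |f u| ≤ c) :
    ∀ s : List ℕ, |pathPotential f s| ≤ (s.length + 1) * c
  | [] => by simpa [pathPotential] using h []
  | a :: v => by
    have h1 := abs_pathPotential_le f h v
    have h2 := h (a :: v)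
    have h3 := abs_add_le (pathPotential f v) (f (a :: v))
    simp only [pathPotential, List.length_cons]
    push_cast
    linarith

theorem norm_le_JK (k : ℕ) (x : HT) : ‖x‖ ≤ ((k + 1 : ℕ) : NNReal) * ‖JK k x‖ := by
  by_cases hx : x = 0
  · simp [hx]
  have hn : 0 < ‖x‖ := norm_pos_iff.2 hx
  have hk : (0 : ℝ) < k + 1 := by positivity
  set w : HT := (‖x‖ * (k + 1))⁻¹ • x with hw
  have hwn : ‖w‖ = (k + 1 : ℝ)⁻¹ := by
    rw [hw, norm_smul, Real.norm_of_nonneg (by positivity)]
    field_simp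
  have hw1 : ‖w‖ ≤ 1 := by
    rw [hwn]
    exact inv_le_one_of_one_le₀ (by linarith [(Nat.cast_nonneg k : (0 : ℝ) ≤ k)])
  let f : TestK k := ⟨w, fun A => by
      have h1 := lp.sum_rpow_le_norm_rpow (p := 2) (by simp) w A
      have h2 : ‖w‖ ^ 2 ≤ 1 := pow_le_one₀ (norm_nonneg _) hw1
      simp only [ENNReal.toReal_ofNat, Real.rpow_ofNat, Real.norm_eq_abs, sq_abs] at h1
      exact h1.trans h2, fun s hs => by
      have h1 := abs_pathPotential_le w (c := (k + 1 : ℝ)⁻¹) (fun u => by
        rw [← hwn]; exact lp.norm_apply_le_norm (by simp) w u) s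
      refine h1.trans ?_
      rw [mul_inv_le_iff₀ hk, one_mul]
      have : (s.length : ℝ) ≤ k := by exact_mod_cast hs
      linarith⟩
  have h1 : ‖JK k x f‖ ≤ ‖JK k x‖ := lp.norm_apply_le_norm (by simp) (JK k x) f
  have h2 : f.toH = w := rfl
  rw [JK_apply, h2, hw, real_inner_smul_left, real_inner_self_eq_norm_sq,
    Real.norm_of_nonneg (by positivity)] at h1
  have h3 : (‖x‖ * (k + 1))⁻¹ * ‖x‖ ^ 2 = ‖x‖ / (k + 1) := by field_simp
  rw [h3, div_le_iff₀ hk] at h1
  push_cast
  linarith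

theorem antilip_JK (k : ℕ) : AntilipschitzWith ((k + 1 : ℕ) : NNReal) (JK k) :=
  (JK k).antilipschitz_of_bound (norm_le_JK k)

theorem isClosed_range_JK (k : ℕ) : IsClosed (Set.range (JK k)) :=
  (antilip_JK k).isClosed_range (JK k).uniformContinuous

/-- the `k`-th building block -/
noncomputable abbrev XK (k : ℕ) : Submodule ℝ (lp (fun _ : TestK k => ℝ) ⊤) := (JK k).range

instance completeXK (k : ℕ) : CompleteSpace (XK k) := (isClosed_range_JK k).completeSpace_coe

/-- the block is isomorphic to Hilbert space -/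
noncomputable def equivXK (k : ℕ) : HT ≃L[ℝ] XK k :=
  ContinuousLinearMap.equivRange (antilip_JK k).injective (isClosed_range_JK k)

/-- coordinate vectors of the block -/
noncomputable def eK (k : ℕ) (s : List ℕ) : XK k := equivXK k (lp.single 2 s 1)

theorem evT_eK (k : ℕ) (f : TestK k) (s : List ℕ) : evT (XK k) f (eK k s) = f.1 s := by
  change ⟪f.toH, lp.single 2 s (1 : ℝ)⟫ = _
  rw [lp.inner_single_right, TestK.toH_apply]
  simp

theorem dense_eK (k : ℕ) : Dense (span ℝ (Set.range (eK k)) : Set (XK k)) := by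
  intro x
  obtain ⟨w, rfl⟩ := (equivXK k).surjective x
  have h := mem_of_single_mem (E := fun _ : List ℕ => ℝ)
    ((span ℝ (Set.range (eK k))).topologicalClosure.comap
      ((equivXK k : HT →L[ℝ] XK k) : HT →ₗ[ℝ] XK k))
    ((Submodule.isClosed_topologicalClosure _).preimage (equivXK k).continuous) (fun s a => by
      have : (lp.single 2 s a : HT) = a • lp.single 2 s (1 : ℝ) := by
        rw [← lp.single_smul]; simp
      rw [this]
      exact Submodule.smul_mem _ _
        (Submodule.le_topologicalClosure (span ℝ (Set.range (eK k))) (subset_span ⟨s, rfl⟩))) w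
  exact h

/-- the indicator test -/
noncomputable def singleTest (k : ℕ) (w : List ℕ) : TestK k :=
  ⟨Pi.single w 1, fun A => sum_single_sq_le _ A, fun s _ => abs_pathPotential_single_le _ s⟩

instance (k : ℕ) : Nonempty (TestK k) := ⟨singleTest k []⟩

theorem exists_testK (k : ℕ) (x : XK k) (ε : ℝ) (hε : 0 < ε) :
    ∃ f, ‖x‖ - ε ≤ evT (XK k) f x :=
  exists_evT _ (eK k) (dense_eK k) (fun f => ⟨⟨-f.1,
    extra_of_dom (α := 1) (β := 0) (by norm_num) f.2.1 f.2.1 (fun s => by simp),
    fun s hs => by rw [pathPotential_neg, abs_neg]; exact f.2.2 s hs⟩, fun s => by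
      rw [evT_eK, evT_eK]; rfl⟩) x ε hε

theorem avg_XK (k : ℕ) (T : Finset (List ℕ)) (hT0 : [] ∈ T)
    (hT : ∀ a v, a :: v ∈ T → v ∈ T) (x y : XK k)
    (hx : x ∈ (span ℝ (eK k '' (T : Set (List ℕ)))).topologicalClosure)
    (hy : y ∈ (span ℝ (eK k '' (T : Set (List ℕ))ᶜ)).topologicalClosure) :
    Real.sqrt (‖x‖ ^ 2 + ‖y‖ ^ 2 / 4) ≤ (‖x + y‖ + ‖x - y‖) / 2 := by
  refine avg_ge (evT (XK k)) (abs_evT_le _) (exists_testK k) (eK k) T ?_ hx hy
  intro f g α β hα hβ hα1 hβ1 hαβ
  obtain ⟨h₁, h₂, p1, p2, hon, hoff, d1, d2⟩ := exists_mix (fun s => s ∈ T)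
    (fun s => s.length ≤ k) hT0 hT
    (fun _ _ h => by simp only [List.length_cons] at h; omega) f.1 g.1 hα hα1 hβ hβ1 f.2.2 g.2.2
  refine ⟨⟨h₁, extra_of_dom hαβ f.2.1 g.2.1 d1, p1⟩, ⟨h₂, extra_of_dom hαβ f.2.1 g.2.1 d2, p2⟩,
    ?_, ?_⟩
  · intro s hs
    simp only [evT_eK]
    exact hon s hs
  · intro s hs
    simp only [evT_eK]
    exact hoff s hs

/-- the space -/
abbrev BigX : Type := lp (fun k : ℕ => XK k) 2

theorem propQ_BigX : PropQ BigX := propQ_lp eK dense_eK avg_XK

theorem separable_BigX : TopologicalSpace.SeparableSpace BigX :=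
  separable_of_dense (X := BigX) (bigE eK) (dense_bigE eK dense_eK)

theorem noAUC_BigX (hc : CompleteSpace BigX) (N : BigX → ℝ) (hN : (mkB BigX hc).IsEquivNorm N) :
    ¬ (mkB BigX hc).IsAUC N := by
  refine noAUC_tree hc 1 1 one_pos
    (fun k => ⟨fun v => lp.single 2 k (pathSum (eK k) v), ?_, ?_, ?_⟩) N hN
  · intro v hv
    rw [lp.norm_single (by simp)]
    refine norm_le_of_evT _ _ zero_le_one fun f => ?_
    rw [map_pathSum (eK k) _ f.1 (evT_eK k f)]
    exact f.2.2 v hv
  · intro v a _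
    rw [← lp.single_sub, lp.norm_single (by simp)]
    have h := abs_evT_le (XK k) (singleTest k (a :: v)) (eK k (a :: v))
    rw [evT_eK] at h
    simpa [pathSum, singleTest] using h
  · intro v _ φ
    have h := weaklyNull_of_upper (fun a => eK k (a :: v)) 1 ?_
      (φ.comp (lp.singleContinuousLinearMap ℝ (fun k : ℕ => XK k) 2 k))
    · refine h.congr fun a => ?_
      rw [← lp.single_sub]
      simp [pathSum]
    intro A c hc
    have h1 : ‖∑ n ∈ A, c n • eK k (n :: v)‖ ≤ Real.sqrt A.card := by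
      refine norm_le_of_evT _ _ (Real.sqrt_nonneg _) fun f => ?_
      rw [map_sum]
      simp only [map_smul, evT_eK, smul_eq_mul]
      exact signed_sum_le A c (fun n => f.1 (n :: v)) hc (siblings_le f.2.1 v A)
    have h2 := pow_le_pow_left₀ (norm_nonneg _) h1 2
    rw [Real.sq_sqrt (Nat.cast_nonneg _)] at h2
    simpa using h2

end Crest.Agent.R125
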