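import Crest.Agent.R125.Basic
import Crest.Agent.R125.Mix

/-!
Row 125: spaces normed by families of tests, with a dense family of coordinate vectors.
-/

set_option autoImplicit false

namespace Crest.Agent.R125

open Filter Topology Submodule

section general

variable {X : Type} [NormedAddCommGroup X] [NormedSpace ℝ X] {ι : Type}

theorem map_mem_of_closure {G : Type} [NormedAddCommGroup G] [NormedSpace ℝ G]
    (L : X →L[ℝ] G) (s : Set X) (M : Submodule ℝ G) (hM : IsClosed (M : Set G))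
    (h : ∀ x ∈ s, L x ∈ M) : ∀ y ∈ (span ℝ s).topologicalClosure, L y ∈ M := by
  intro y hy
  have h1 : (span ℝ s).topologicalClosure ≤ M.comap (L : X →ₗ[ℝ] G) := by
    apply Submodule.topologicalClosure_minimal
    · exact span_le.2 fun x hx => h x hx
    · exact hM.preimage L.continuous
  exact h1 hy

theorem zero_of_closure (L : X →L[ℝ] ℝ) (s : Set X) (h : ∀ x ∈ s, L x = 0) :
    ∀ y ∈ (span ℝ s).topologicalClosure, L y = 0 := by
  intro y hy
  simpa using map_mem_of_closure L s ⊥ (by simp) (by simpa using h) y hy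

theorem cof_compl (e : ι → X) (hd : Dense (span ℝ (Set.range e) : Set X)) (T : Finset ι) :
    Cof (span ℝ (e '' (T : Set ι)ᶜ)).topologicalClosure := by
  refine ⟨Submodule.isClosed_topologicalClosure _, ?_⟩
  have hfg : (span ℝ (e '' (T : Set ι))).FG := Submodule.fg_span (T.finite_toSet.image e)
  have hfd : FiniteDimensional ℝ (span ℝ (e '' (T : Set ι))) := Module.Finite.iff_fg.2 hfg
  refine Submodule.FG.cofg_of_codisjoint ?_ hfg
  rw [codisjoint_iff, sup_comm, eq_top_iff]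
  have hcl := Submodule.isClosed_sup_finiteDimensional
    (span ℝ (e '' (T : Set ι)ᶜ)).topologicalClosure (span ℝ (e '' (T : Set ι)))
    (Submodule.isClosed_topologicalClosure _)
  have hle : span ℝ (Set.range e) ≤
      (span ℝ (e '' (T : Set ι)ᶜ)).topologicalClosure ⊔ span ℝ (e '' (T : Set ι)) := by
    rw [span_le]
    rintro _ ⟨i, rfl⟩
    by_cases hi : i ∈ T
    · exact Submodule.mem_sup_right (subset_span ⟨i, hi, rfl⟩)
    · exact Submodule.mem_sup_left (Submodule.le_topologicalClosure _ (subset_span ⟨i, hi, rfl⟩))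
  intro x _
  have : x ∈ closure (span ℝ (Set.range e) : Set X) := hd x
  exact closure_minimal hle hcl this

theorem exists_approx (e : ι → X) (hd : Dense (span ℝ (Set.range e) : Set X)) (x : X) {ε : ℝ}
    (hε : 0 < ε) : ∃ A : Finset ι, ∃ x' ∈ span ℝ (e '' (A : Set ι)), ‖x - x'‖ < ε := by
  classical
  obtain ⟨x', hx', h⟩ := Metric.mem_closure_iff.1 (hd x) ε hε
  obtain ⟨T, hT, hxT⟩ := Submodule.mem_span_finite_of_mem_span hx'
  have : (T : Set X) ⊆ e '' Set.univ := by simpa using hT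
  obtain ⟨A, -, hA⟩ := Finset.subset_set_image_iff.1 this
  refine ⟨A, x', ?_, by rwa [dist_eq_norm] at h⟩
  rw [← hA] at hxT
  simpa using hxT

theorem separable_of_dense [Countable ι] (e : ι → X)
    (hd : Dense (span ℝ (Set.range e) : Set X)) : TopologicalSpace.SeparableSpace X := by
  rw [← TopologicalSpace.isSeparable_univ_iff, ← hd.closure_eq]
  exact ((Set.countable_range e).isSeparable.span (R := ℝ)).closure

theorem dense_span_lift {E : Type} [NormedAddCommGroup E] [NormedSpace ℝ E] (v : ι → E)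
    (e : ι → (span ℝ (Set.range v)).topologicalClosure) (he : ∀ i, (e i : E) = v i) :
    Dense (span ℝ (Set.range e) : Set (span ℝ (Set.range v)).topologicalClosure) := by
  rw [Subtype.dense_iff]
  intro x hx
  have h1 : (Subtype.val '' (span ℝ (Set.range e) : Set (span ℝ (Set.range v)).topologicalClosure))
      = (span ℝ (Set.range v) : Set E) := by
    have := Submodule.map_span ((span ℝ (Set.range v)).topologicalClosure.subtype) (Set.range e)
    rw [← Set.range_comp] at this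
    have h2 : ((span ℝ (Set.range v)).topologicalClosure.subtype) ∘ e = v := funext he
    rw [h2] at this
    exact congrArg SetLike.coe this
  have h3 : x ∈ closure (span ℝ (Set.range v) : Set E) := hx
  rw [← h1] at h3
  exact h3

/-- the exact averaged midpoint inequality from a mixing property of the norming tests -/
theorem avg_ge {I : Type} (ev : I → X →L[ℝ] ℝ) (h1 : ∀ i x, |ev i x| ≤ ‖x‖)
    (h2 : ∀ x ε, 0 < ε → ∃ i, ‖x‖ - ε ≤ ev i x) (e : ι → X) (T : Set ι)
    (hmix : ∀ f g : I, ∀ α β : ℝ, 0 ≤ α → 0 ≤ β → α ≤ 1 → β ≤ 1 → α ^ 2 + β ^ 2 ≤ 1 →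
      ∃ h₁ h₂ : I, (∀ s ∈ T, ev h₁ (e s) = α * ev f (e s) ∧ ev h₂ (e s) = α * ev f (e s)) ∧
        ∀ s, s ∉ T → ev h₁ (e s) - ev h₂ (e s) = β * ev g (e s))
    {x y : X} (hx : x ∈ (span ℝ (e '' T)).topologicalClosure)
    (hy : y ∈ (span ℝ (e '' Tᶜ)).topologicalClosure) :
    Real.sqrt (‖x‖ ^ 2 + ‖y‖ ^ 2 / 4) ≤ (‖x + y‖ + ‖x - y‖) / 2 := by
  refine le_of_forall_pos_le_add fun ε hε => ?_
  obtain ⟨α, β, hα, hβ, hα1, hβ1, hαβ, hsum⟩ := exists_weights ‖x‖ (‖y‖ / 2) (norm_nonneg _)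
    (by positivity)
  obtain ⟨f, hf⟩ := h2 x (ε / 2) (by positivity)
  obtain ⟨g, hg⟩ := h2 y (ε / 2) (by positivity)
  obtain ⟨h₁, h₂, hon, hoff⟩ := hmix f g α β hα hβ hα1 hβ1 hαβ
  have e1 : ev h₁ x = α * ev f x := by
    have := zero_of_closure (ev h₁ - α • ev f) (e '' T) (by
      rintro _ ⟨s, hs, rfl⟩
      simp [(hon s hs).1]) x hx
    simpa [sub_eq_zero] using this
  have e2 : ev h₂ x = α * ev f x := by
    have := zero_of_closure (ev h₂ - α • ev f) (e '' T) (by
      rintro _ ⟨s, hs, rfl⟩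
      simp [(hon s hs).2]) x hx
    simpa [sub_eq_zero] using this
  have e3 : ev h₁ y - ev h₂ y = β * ev g y := by
    have := zero_of_closure (ev h₁ - ev h₂ - β • ev g) (e '' Tᶜ) (by
      rintro _ ⟨s, hs, rfl⟩
      simp [hoff s hs]) y hy
    simpa [sub_eq_zero] using this
  have i1 := (le_abs_self _).trans (h1 h₁ (x + y))
  have i2 := (le_abs_self _).trans (h1 h₂ (x - y))
  rw [map_add] at i1
  rw [map_sub] at i2
  have hs : Real.sqrt (‖x‖ ^ 2 + ‖y‖ ^ 2 / 4) = α * ‖x‖ + β * (‖y‖ / 2) := by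
    rw [hsum]; congr 1; ring
  rw [hs]
  have j1 := mul_le_mul_of_nonneg_left hf hα
  have j2 := mul_le_mul_of_nonneg_left hg hβ
  have j3 := mul_le_mul_of_nonneg_right hα1 hε.le
  have j4 := mul_le_mul_of_nonneg_right hβ1 hε.le
  nlinarith

theorem sqrt_lip (a b c : ℝ) (hc : 0 ≤ c) :
    Real.sqrt (a ^ 2 + c) ≤ Real.sqrt (b ^ 2 + c) + |a - b| := by
  have h0 := Real.sqrt_nonneg (b ^ 2 + c)
  have h1 : Real.sqrt (b ^ 2 + c) ^ 2 = b ^ 2 + c := Real.sq_sqrt (by positivity)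
  have h2 : |b| ≤ Real.sqrt (b ^ 2 + c) := Real.abs_le_sqrt (by linarith)
  rw [Real.sqrt_le_iff]
  refine ⟨by positivity, ?_⟩
  have h3 : (a - b) ^ 2 = |a - b| ^ 2 := (sq_abs _).symm
  have h4 : b * (a - b) ≤ |b| * |a - b| := by rw [← abs_mul]; exact le_abs_self _
  have h5 := mul_le_mul_of_nonneg_right h2 (abs_nonneg (a - b))
  nlinarith

end general

section lpinf

variable {I : Type}

/-- evaluation at a test -/
noncomputable def evT (X : Submodule ℝ (lp (fun _ : I => ℝ) ⊤)) (i : I) : X →L[ℝ] ℝ :=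
  (lp.evalCLM ℝ (fun _ : I => ℝ) ⊤ i).comp X.subtypeL

theorem evT_apply (X : Submodule ℝ (lp (fun _ : I => ℝ) ⊤)) (i : I) (x : X) :
    evT X i x = (x : lp (fun _ : I => ℝ) ⊤) i := rfl

theorem abs_evT_le (X : Submodule ℝ (lp (fun _ : I => ℝ) ⊤)) (i : I) (x : X) :
    |evT X i x| ≤ ‖x‖ :=
  lp.norm_apply_le_norm (by simp) (x : lp (fun _ : I => ℝ) ⊤) i

theorem norm_le_of_evT (X : Submodule ℝ (lp (fun _ : I => ℝ) ⊤)) (x : X) {C : ℝ} (hC : 0 ≤ C)
    (h : ∀ i, |evT X i x| ≤ C) : ‖x‖ ≤ C :=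
  lp.norm_le_of_forall_le (f := (x : lp (fun _ : I => ℝ) ⊤)) hC h

theorem exists_evT {ι : Type} [Nonempty I] (X : Submodule ℝ (lp (fun _ : I => ℝ) ⊤))
    (e : ι → X) (hd : Dense (span ℝ (Set.range e) : Set X))
    (hneg : ∀ i : I, ∃ j : I, ∀ s, evT X j (e s) = - evT X i (e s)) (x : X) (ε : ℝ) (hε : 0 < ε) :
    ∃ i, ‖x‖ - ε ≤ evT X i x := by
  have h1 : ∃ i, ‖x‖ - ε ≤ |evT X i x| := by
    by_contra h
    push Not at h
    have := lp.norm_le_of_forall_le' (f := (x : lp (fun _ : I => ℝ) ⊤)) (‖x‖ - ε)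
      (fun i => (h i).le)
    have h2 : ‖(x : lp (fun _ : I => ℝ) ⊤)‖ = ‖x‖ := rfl
    linarith
  obtain ⟨i, hi⟩ := h1
  rcases le_total 0 (evT X i x) with h | h
  · exact ⟨i, by rwa [abs_of_nonneg h] at hi⟩
  · obtain ⟨j, hj⟩ := hneg i
    have := zero_of_closure (evT X j + evT X i) (Set.range e) (by
      rintro _ ⟨s, rfl⟩
      simp [hj s]) x (hd x)
    rw [ContinuousLinearMap.add_apply] at this
    rw [abs_of_nonpos h] at hi
    exact ⟨j, by linarith⟩

end lpinf

end Crest.Agent.R125
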